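import Crest.Agent.N250.Wr.Wm
import Crest.Agent.N250.Wt.Defs
import Crest.Agent.N250.Re.Slice

/-!
# Row 250 (helper67): the `WS.Geo` of a shrinker with ends
-/

set_option autoImplicit false
open MeasureTheory Set Filter Topology
open scoped ContDiff InnerProductSpace
open Crest.GeometryTopology.MCF

noncomputable section

namespace Crest.Agent.N250.Wr

open Crest.Agent.N222 (SmR)

variable {S : Mv} {f g : ST → ℝ}

section Dict
variable (hR : S.Reg)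

/-- a smooth function on the track as a smooth function on the slice `0` -/
def mkR (f : ST → ℝ) (hf : S.Sm f) : SmR (hR.imm 0).ch := ⟨S.rs 0 f, hR.imm_sm 0 hf⟩

/-- the normal -/
def nS (c : Fin 3) : SmR (hR.imm 0).ch := mkR hR (S.nu c) (hR.sm_nu c)

/-- the calculus of the slice `0` -/
abbrev mv : Mov (SmR (hR.imm 0).ch) (Fin 3) := WS.mov (hR.imm 0) (nS hR)

theorem mkR_apply (hf : S.Sm f) (p : S.sl 0) : (mkR hR f hf).1 p = f (p, 0) := rfl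

theorem mkR_ext {u : SmR (hR.imm 0).ch} (hf : S.Sm f) (h : ∀ p : S.sl 0, u.1 p = f (p, 0)) :
    u = mkR hR f hf := Subtype.ext (funext h)

theorem exists_mkR (hS : S.Static) (u : SmR (hR.imm 0).ch) : ∃ f hf, u = mkR hR f hf :=
  ⟨S.lift 0 u.1, hR.sm_lift 0 hS u.2, Subtype.ext (Mv.rs_lift u.1).symm⟩

theorem mkR_add (hf : S.Sm f) (hg : S.Sm g) :
    mkR hR f hf + mkR hR g hg = mkR hR (f + g) (hf.add hg) := rfl

theorem mkR_sub (hf : S.Sm f) (hg : S.Sm g) :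
    mkR hR f hf - mkR hR g hg = mkR hR (f - g) (hf.sub hg) := rfl

theorem mkR_mul (hf : S.Sm f) (hg : S.Sm g) :
    mkR hR f hf * mkR hR g hg = mkR hR (f * g) (hf.mul hg) := rfl

theorem val_sum {κ : Type} (s : Finset κ) (u : κ → SmR (hR.imm 0).ch) (p : S.sl 0) :
    (∑ i ∈ s, u i).1 p = ∑ i ∈ s, (u i).1 p := by
  rw [AddSubmonoidClass.coe_finsetSum, Finset.sum_apply]

theorem mv_D (hf : S.Sm f) (a : Fin 3) :
    (mv hR).D a (mkR hR f hf) = mkR hR (S.D a f) (hR.sm_D hf a) := Subtype.ext (hR.imm_D 0 hf a)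

theorem mv_x (a : Fin 3) : (mv hR).x a = mkR hR (S.pre.x a) (Mv.sm_x a) := rfl

theorem mv_n (a : Fin 3) : (mv hR).n a = mkR hR (S.nu a) (hR.sm_nu a) := rfl

theorem mv_Dw (hf : S.Sm f) (l : List (Fin 3)) :
    (mv hR).Dw l (mkR hR f hf) = mkR hR (S.DL l f) (hR.sm_DL hf l) := by
  induction l with
  | nil => rfl
  | cons a l ih => rw [Mov.Dw, ih, mv_D]; rfl

theorem mv_P (a b : Fin 3) : (mv hR).P a b = mkR hR (S.P a b) (hR.sm_P a b) :=
  mv_D hR (Mv.sm_x b) a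

theorem mv_B (a b : Fin 3) : (mv hR).B a b = mkR hR (S.A a b) (hR.sm_A a b) :=
  mv_D hR (hR.sm_nu b) a

theorem mv_h : (mv hR).h = mkR hR S.H hR.sm_H := mkR_ext hR _ fun p => by
  simp only [Mov.h, val_sum, mv_B, mkR_apply, Mv.H_apply]

theorem mv_a2 : (mv hR).a2 = mkR hR S.A2 hR.sm_A2 := mkR_ext hR _ fun p => by
  simp only [Mov.a2, val_sum, mv_B, mkR_mul, mkR_apply, Mv.A2_apply, Pi.mul_apply]

theorem mv_xn : (mv hR).xn = mkR hR (S.xn 0) (hR.sm_xn 0) := mkR_ext hR _ fun p => by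
  simp only [Mov.xn, val_sum, mv_x, mv_n, mkR_mul, mkR_apply, xn_eq_sum, Pi.mul_apply]
  rfl

theorem mv_x2 (p : S.sl 0) : (mv hR).x2.1 p = ‖(p : E)‖ ^ 2 := by
  simp only [Mov.x2, val_sum, mv_x, mkR_mul, mkR_apply, norm_sq_eq, Pi.mul_apply]
  rfl

theorem mv_dr (hf : S.Sm f) (p : S.sl 0) :
    ((mv hR).dr (mkR hR f hf)).1 p = ∑ c, (p : E) c * S.D c f (p, 0) := by
  simp only [Mov.dr, val_sum, mv_x, mv_D, mkR_mul, mkR_apply, Pi.mul_apply]
  rfl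

theorem mv_gam (hf : S.Sm f) (hg : S.Sm g) :
    (mv hR).gam (mkR hR f hf) (mkR hR g hg) = mkR hR (S.gam f g) (hR.sm_gam hf hg) :=
  mkR_ext hR _ fun p => by
    have : (mv hR).gam (mkR hR f hf) (mkR hR g hg) =
      ∑ a, (mv hR).D a (mkR hR f hf) * (mv hR).D a (mkR hR g hg) := rfl
    simp only [this, val_sum, mv_D, mkR_mul, mkR_apply, Mv.gam_apply, Pi.mul_apply]

theorem mv_lap (hf : S.Sm f) : (mv hR).lap (mkR hR f hf) = mkR hR (S.lap f) (hR.sm_lap hf) :=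
  mkR_ext hR _ fun p => by
    have : (mv hR).lap (mkR hR f hf) = ∑ a, (mv hR).D a ((mv hR).D a (mkR hR f hf)) := rfl
    simp only [this, val_sum, mv_D, mkR_apply, Mv.lap_apply]

theorem mv_LL (hf : S.Sm f) (p : S.sl 0) : ((mv hR).LL (mkR hR f hf)).1 p =
    S.lap f (p, 0) - (∑ c, (p : E) c * S.D c f (p, 0)) / 2 + (S.A2 (p, 0) + 1 / 2) * f (p, 0) := by
  have : ((mv hR).LL (mkR hR f hf)).1 p = ((mv hR).lap (mkR hR f hf)).1 p
      - 1 / 2 * (((mv hR).dr (mkR hR f hf)).1 p + (((0 : ℕ) : ℝ) - 1) * f (p, 0))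
      + (mv hR).a2.1 p * f (p, 0) := rfl
  rw [this, mv_lap, mv_dr, mv_a2, mkR_apply, mkR_apply]
  push_cast
  ring

theorem mv_hyp : (mv hR).IsHyp where
  toIsDS := (hR.imm 0).isDS
  nn := Subtype.ext (funext fun p => by
    simp only [val_sum, mv_n, mkR_mul, mkR_apply, Pi.mul_apply]
    exact hR.nn p.2)
  Pn a b := Subtype.ext (funext fun p => by
    rw [mv_P, mkR_apply, hR.P_eq p.2]
    split_ifs <;> rfl)

/-- transport of symbols -/
theorem Sym.ws {ρ : ST → ℝ} (hρ : S.Sm ρ) {k : ℤ} (h : Sym S ρ univ k f) :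
    WS.Sym (nS hR) (mkR hR ρ hρ) k (mkR hR f h.1) := fun l => by
  obtain ⟨C, -, hC⟩ := h.2 l
  exact ⟨C, fun p => by rw [mv_Dw]; exact hC (p, 0) p.2 trivial⟩

end Dict

theorem compact_sl (hc : IsClosed S.M) (r : ℝ) : IsCompact {p : S.sl 0 | ‖(p : E)‖ ^ 2 ≤ r} := by
  have h1 : IsClosed (S.sl 0) := hc.preimage (Continuous.prodMk_left 0)
  refine (h1.isClosedEmbedding_subtypeVal.isCompact_preimage
    (isCompact_closedBall (0 : E) (1 + r))).of_isClosed_subset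
    (isClosed_le (by fun_prop) continuous_const) fun p hp => ?_
  have hp : ‖(p : E)‖ ^ 2 ≤ r := hp
  simp only [mem_preimage, mem_closedBall_zero_iff]
  nlinarith [sq_nonneg (‖(p : E)‖ - 1), norm_nonneg (p : E)]

/-- the parameters: `ρ = rho e a`, `ζ = zeta e a' b'`, `m = ρ^(2b-4) (1 + |x|²)^(-b)` -/
structure Prm (S : Mv) where
  e : Ends S
  Λ : ℝ
  a : ℝ
  a' : ℝ
  b' : ℝ
  b : ℕ
  shr : S.IsShr
  ar : S.AR Λ
  ha : e.R < a
  ha' : e.R < a'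
  hab : a' < b'
  hb : ∀ p ∈ S.M, 2 * S.A2 p + 4 ≤ b
  two : 2 ≤ b

theorem exists_b (hS : S.IsShr) (e : Ends S) :
    ∃ b₀ : ℕ, 2 ≤ b₀ ∧ ∀ b, b₀ ≤ b → ∀ p ∈ S.M, 2 * S.A2 p + 4 ≤ b := by
  obtain ⟨C, h0, h⟩ := A2_le hS (e := e) (a := e.R + 1) (by linarith)
  refine ⟨⌈2 * C + 4⌉₊ + 2, by omega, fun b hb p hp => ?_⟩
  have h1 : C / rho e (e.R + 1) p ^ 2 ≤ C :=
    div_le_self h0 (one_le_pow₀ (one_le_rho _ p))
  have h2 : ((⌈2 * C + 4⌉₊ + 2 : ℕ) : ℝ) ≤ b := Nat.cast_le.2 hb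
  push_cast at h2
  linarith [h p hp, Nat.le_ceil (2 * C + 4)]

namespace Prm

variable (P : Prm S)

/-- the density -/
def mm : ST → ℝ := wt P.e P.a (2 * P.b - 4) P.b

theorem mm_eq (p : ST) : P.mm p = rho P.e P.a p ^ (2 * P.b - 4) / tt p ^ P.b := by
  have h2 := P.two
  have := wt_eq (e := P.e) P.a ((2 * P.b - 4 : ℕ) : ℤ) P.b p
  rw [zpow_natCast, Int.cast_natCast, Nat.cast_sub (by omega)] at this
  push_cast at this
  exact this

theorem mm_ge (p : ST) : 1 ≤ P.mm p * tt p ^ P.b := by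
  rw [mm_eq, div_mul_cancel₀ _ (pow_pos (tt_pos p) _).ne']
  exact one_le_pow₀ (one_le_rho _ p)

theorem mm_tube {j : Fin P.e.p} {p : ST} (hp : p ∈ tube P.e j (P.a + 1)) :
    P.mm p = (tt p ^ P.b)⁻¹ := by rw [mm_eq, rho_tube hp, one_pow, one_div]

theorem mm_le (p : ST) : P.mm p ≤ (tt p ^ 2)⁻¹ := by
  obtain ⟨k, hk⟩ := Nat.exists_eq_add_of_le P.two
  have ht := tt_pos p
  rw [mm_eq, hk, show 2 * (2 + k) - 4 = 2 * k by omega, pow_mul, pow_add, ← one_div,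
    div_le_div_iff₀ (by positivity) (by positivity), one_mul, mul_comm]
  gcongr
  exact rho_sq_le _ p

theorem sm_iota : S.Sm fun p => (rho P.e P.a p)⁻¹ := (sym_iota P.shr.reg P.shr.st P.ha).1

theorem sm_zeta : S.Sm fun p => zeta P.e P.a' P.b' p.1 := sm_amb (contDiff_zeta _ _)

theorem zone : ∃ C : ℝ, 1 ≤ C ∧ ∀ p ∈ S.M, (∀ j, p ∉ tube P.e j P.b') →
    tt p ≤ C * rho P.e P.a p ^ 2 := by
  refine ⟨1 + (2 * P.b') ^ 2, by nlinarith, fun p hp h => ?_⟩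
  have h1 : 1 ≤ rho P.e P.a p ^ 2 := one_le_pow₀ (one_le_rho _ p)
  rcases three P.shr.st (b := P.b') (c := 2 * P.b') (by linarith [P.ha', P.hab]) le_rfl hp
    with h0 | h0 | ⟨j, h0⟩
  · have h2 : ‖p.1‖ ≤ 2 * P.b' := h0
    have := pow_le_pow_left₀ (norm_nonneg _) h2 2
    rw [tt]
    nlinarith
  · rw [rho_off (con_off P.ha h0.2), rho0_sq, tt]
    nlinarith [sq_nonneg (2 * P.b'), sq_nonneg ‖p.1‖]
  · exact (h j h0).elim

theorem not_tube {p : S.sl 0} (hp : p ∈ tsupport (mkR P.shr.reg _ P.sm_zeta).1) (j : Fin P.e.p) :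
    ((p : E), (0 : ℝ)) ∉ tube P.e j P.b' := fun h => by
  refine (notMem_tsupport_iff_eventuallyEq.2 ?_) hp
  have hc : Continuous fun q : S.sl 0 => ((q : E), (0 : ℝ)) := by fun_prop
  filter_upwards [hc.continuousAt.preimage_mem_nhds ((isOpen_tube j P.b').mem_nhds h)] with q hq
  exact zeta_zero P.hab hq

theorem iota_mm : mkR P.shr.reg _ P.sm_iota ^ 2 * mkR P.shr.reg P.mm (sm_wt _ _ _) =
    mkR P.shr.reg (wt P.e P.a (2 * P.b - 6) P.b) (sm_wt _ _ _) := mkR_ext _ _ fun p => by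
  rw [show (2 * P.b - 6 : ℝ) = 2 * P.b - 4 - 2 by ring, ← iota_sq_wt]
  rfl

/-- the weighted setting -/
def geo : WS.Geo (S.sl 0) where
  M := P.shr.reg.imm 0
  n := nS P.shr.reg
  ρ := mkR P.shr.reg (rho P.e P.a) (sm_rho _)
  ι := mkR P.shr.reg _ P.sm_iota
  m := mkR P.shr.reg P.mm (sm_wt _ _ _)
  ζ := mkR P.shr.reg _ P.sm_zeta
  hyp := mv_hyp _
  shr := by
    rw [mv_xn, mv_h]
    refine Subtype.ext (funext fun p => ?_)
    have := P.shr.eq (p, 0) p.2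
    rw [Mv.shr] at this
    change S.xn 0 (p, 0) = 2 * S.H (p, 0)
    linarith
  prop r := by simpa only [mv_x2] using compact_sl P.shr.closed r
  ρι := Subtype.ext (funext fun p => mul_inv_cancel₀ (rho_pos P.a (p, 0)).ne')
  one_le p := one_le_rho _ _
  ρ_le p := by rw [mv_x2]; exact rho_sq_le P.a (p, 0)
  symρ := (sym_rho1 P.shr.reg P.shr.st P.ha).ws _ _
  symι := (sym_iota P.shr.reg P.shr.st P.ha).ws _ _
  symn a := (sym_nu P.shr.reg P.shr.st P.ha a).ws _ _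
  drρ := by
    obtain ⟨C, -, h⟩ := dr_rho P.shr P.ha
    exact ⟨C, fun p => by rw [mv_dr]; exact h (p, 0) p.2⟩
  m_pos p := wt_pos _ _ _ _
  m_le p := (P.mm_le _).trans (inv_le_one_of_one_le₀ (one_le_pow₀ (one_le_tt _)))
  m_ge := ⟨1, P.b, one_pos, fun p => by rw [mv_x2]; exact P.mm_ge (p, 0)⟩
  m_int := by
    have h := (P.shr.reg.imm_integrable 0 _).2 (intg_tt (P.ar 0 0))
    refine h.mono' (N222.Imm.Sm.continuous (mkR P.shr.reg P.mm (sm_wt _ _ _)).2).aestronglyMeasurable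
      (.of_forall fun p => ?_)
    exact (Real.norm_of_nonneg (wt_pos _ _ _ _).le).trans_le (P.mm_le (p, 0))
  Dm := by
    obtain ⟨C, h⟩ := D_wt_le P.shr P.ha (2 * P.b - 4) P.b
    exact ⟨C, fun a p => by rw [mv_D]; exact h a (p, 0) p.2⟩
  drm := by
    obtain ⟨C, h⟩ := dr_wt_le P.shr P.ha (β := P.b) (by exact_mod_cast P.two)
    exact ⟨C, fun p => by rw [mv_dr]; exact h (p, 0) p.2⟩
  far := by
    obtain ⟨R₁, h⟩ := far_wt P.shr P.ha P.hb
    refine ⟨R₁, fun p hp => ?_⟩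
    rw [mv_x2] at hp
    rw [iota_mm, mv_dr, mv_gam, mv_a2]
    exact (le_of_eq (by simp only [mkR_apply, Mv.gam_apply])).trans (h (p, 0) p.2 hp)
  ζ_le p := abs_le.2 ⟨le_trans (by norm_num) (zeta_nonneg (e := P.e) P.a' P.b' p),
    zeta_le_one _ _ _⟩
  symDζ a := by
    rw [mv_D]
    exact (sym_D_zeta P.shr.reg P.shr.st P.ha P.ha' P.hab a (-3)).ws _ _
  zone := by
    obtain ⟨C, h1, h⟩ := P.zone
    refine ⟨C ^ P.b, fun p hp => ?_⟩
    have h2 := h (p, 0) p.2 (P.not_tube hp)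
    have h3 : C ≤ C ^ P.b := le_self_pow₀ h1 (by linarith [P.two])
    have hρ := rho_pos (e := P.e) P.a (p, 0)
    have ht := tt_pos ((p : E), (0 : ℝ))
    rw [mv_x2]
    refine ⟨h2.trans (mul_le_mul_of_nonneg_right h3 (sq_nonneg _)), ?_⟩
    obtain ⟨k, hk⟩ := Nat.exists_eq_add_of_le P.two
    have h4 := pow_le_pow_left₀ ht.le h2 P.b
    change (rho P.e P.a (p, 0))⁻¹ ^ 4 ≤ C ^ P.b * P.mm (p, 0)
    rw [mm_eq, ← mul_div_assoc, le_div_iff₀ (by positivity), inv_pow, inv_mul_le_iff₀ (by positivity)]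
    refine h4.trans_eq ?_
    rw [hk, show 2 * (2 + k) - 4 = 2 * k by omega]
    ring

theorem geo_M : P.geo.M = P.shr.reg.imm 0 := rfl

theorem geo_S : P.geo.S = mv P.shr.reg := rfl

theorem geo_x (p : S.sl 0) : P.geo.M.x p = p := rfl

theorem geo_ρ (p : S.sl 0) : P.geo.ρ.1 p = rho P.e P.a (p, 0) := rfl

theorem geo_ι (p : S.sl 0) : P.geo.ι.1 p = (rho P.e P.a (p, 0))⁻¹ := rfl

theorem geo_m (p : S.sl 0) : P.geo.m.1 p = P.mm (p, 0) := rfl

theorem geo_ζ (p : S.sl 0) : P.geo.ζ.1 p = zeta P.e P.a' P.b' p := rfl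

theorem geo_n (a : Fin 3) (p : S.sl 0) : (P.geo.n a).1 p = S.n (p, 0) a := rfl

/-- symbols of the track are symbols of `geo` -/
theorem sy {k : ℤ} (h : Sym S (rho P.e P.a) univ k f) : P.geo.Sy k (mkR P.shr.reg f h.1) :=
  h.ws _ (sm_rho _)

end Prm

/-- existence of parameters -/
theorem exists_prm (hS : S.IsShr) {Λ : ℝ} (hΛ : S.AR Λ) (e : Ends S) {a a' b' : ℝ} (ha : e.R < a)
    (ha' : e.R < a') (hab : a' < b') :
    ∃ P : Prm S, P.e = e ∧ P.a = a ∧ P.a' = a' ∧ P.b' = b' := by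
  obtain ⟨b, h2, h⟩ := exists_b hS e
  exact ⟨⟨e, Λ, a, a', b', b, hS, hΛ, ha, ha', hab, h b le_rfl, h2⟩, rfl, rfl, rfl, rfl⟩

end Crest.Agent.N250.Wr

end
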