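import Crest.Agent.N250.Wr.Z
import Crest.Agent.N250.Nq.Defs

/-!
# Row 250 (helper67): outer cut-offs on `P.geo` and the data `Nq.Dt`
-/

set_option autoImplicit false
open MeasureTheory Set Filter Topology
open scoped ContDiff InnerProductSpace
open Crest.GeometryTopology.MCF

noncomputable section

namespace Crest.Agent.N250.Wr

variable {S : Mv} {e : Ends S} {j : Fin e.p} {a b a' b' : ℝ} {p : ST}

theorem xi_lt_of_zeta (hS : S.Static) (ha : e.R < a) (h : a < b) (hp : p ∈ S.M)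
    (hz : zeta e a b p.1 ≠ 0) (j : Fin e.p) : p ∈ Off e j b :=
  (tube_or_off hS (ha.trans h) hp j).elim (fun ht => Or.inl (not_le.1 fun h' => hz (by
    rw [zeta_tube hS ha h hp ht, chi_tube ht, st_one h h', sub_self]))) id

theorem zeta_one_of_ne (hS : S.Static) (ha : e.R < a) (h : a < b) (hb : b ≤ a') (h' : a' < b')
    (hp : p ∈ S.M) (hz : zeta e a b p.1 ≠ 0) : zeta e a' b' p.1 = 1 :=
  zeta_one h' fun j => Off_mono hb (xi_lt_of_zeta hS ha h hp hz j)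

theorem tube_of_chi (hS : S.Static) (ha : e.R < a) (h : a < b) (hp : p ∈ S.M)
    (hc : chi e j a b p.1 ≠ 0) : p ∈ tube e j a :=
  (tube_or_off hS ha hp j).elim (fun ht => ⟨not_le.1 fun h' => hc (chi_zero_of_le h h'), ht.2⟩)
    fun ho => (hc (chi_zero h ho)).elim

theorem chi_one_of_ne (hS : S.Static) (ha' : e.R < a') (h : a < b) (hb : b ≤ a') (h' : a' < b')
    (hp : p ∈ S.M) (hc : chi e j a' b' p.1 ≠ 0) : chi e j a b p.1 = 1 :=
  chi_one h (tube_mono hb (tube_of_chi hS ha' h' hp hc))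

namespace Prm

variable (P : Prm S)

/-- the cut-off that kills all tubes beyond `b` -/
def zetaR (a b : ℝ) : P.geo.R :=
  mkR P.shr.reg (fun p => zeta P.e a b p.1) (sm_amb (contDiff_zeta a b))

theorem zetaR_apply (a b : ℝ) (p : S.sl 0) : (P.zetaR a b).1 p = zeta P.e a b p := rfl

theorem geo_ζ_eq : P.geo.ζ = P.zetaR P.a' P.b' := rfl

variable (ha : P.e.R < a) (h : a < b)
include ha h

theorem sy_zetaR : P.geo.Sy 0 (P.zetaR a b) := P.sy (sym_zeta P.shr.reg P.shr.st P.ha ha h)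

theorem sy_zetaR_x (d : Fin 3) : P.geo.Sy 1 (P.zetaR a b * P.geo.S.x d) :=
  P.sy (sym_zeta_x P.shr.reg P.shr.st P.ha ha h d)

theorem zetaR_add_sum : P.zetaR a b + ∑ j, P.chiR j a b = 1 := Subtype.ext (funext fun p => by
  have := zeta_add_sum P.shr.st ha h (p := (p, 0)) p.2
  exact (congrArg (zeta P.e a b p + ·) (val_sum P.shr.reg _ _ p)).trans this)

theorem zetaR_eq : P.zetaR a b = 1 - ∑ j, P.chiR j a b :=
  eq_sub_of_add_eq (P.zetaR_add_sum ha h)

theorem cs_zetaR_chiR (ha' : P.e.R < a') (h' : a' < b') (j : Fin P.e.p) :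
    HasCompactSupport (P.zetaR a b * P.chiR j a' b').1 := by
  refine P.cs_of_bdd (c := b + 2) fun p hp => ?_
  by_contra h0
  have h1 := tube_of_chi P.shr.st ha' h' (p := (p, 0)) p.2 (right_ne_zero_of_mul h0)
  have h2 := xi_lt_of_zeta P.shr.st ha h (p := (p, 0)) p.2 (left_ne_zero_of_mul h0) j
  have h3 := norm_le_of_tube h1 (by linarith [R_pos P.e])
  rcases h2 with h2 | h2
  · exact absurd hp (not_lt.2 (by linarith))
  · linarith [h1.2]

omit ha in
theorem cs_bump (ha' : P.e.R < a') (h' : a' < b') (j : Fin P.e.p) :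
    HasCompactSupport (P.chiR j a' b' * (1 - P.chiR j a b)).1 := by
  refine P.cs_of_bdd (c := b + 2) fun p hp => ?_
  by_contra h0
  have h1 := tube_of_chi P.shr.st ha' h' (p := (p, 0)) p.2 (left_ne_zero_of_mul h0)
  have h3 := norm_le_of_tube h1 (by linarith [R_pos P.e])
  exact right_ne_zero_of_mul h0 (sub_eq_zero.2
    (chi_one h (p := (p, 0)) ⟨by linarith, h1.2⟩).symm)

theorem cs_D_zetaR (k : Fin 3) : HasCompactSupport (P.geo.S.D k (P.zetaR a b)).1 := by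
  have H := P.geo.hyp.toIsDS
  rw [P.zetaR_eq ha h, H.D_sub, H.D_one, H.D_sum, zero_sub]
  have : HasCompactSupport (∑ j, P.geo.S.D k (P.chiR j a b)).1 := by
    rw [AddSubmonoidClass.coe_finsetSum]
    exact Finset.sum_induction _ HasCompactSupport (fun _ _ => HasCompactSupport.add)
      HasCompactSupport.zero fun j _ => P.cs_D_chiR ha h j k
  exact this.neg

omit ha h in
/-- the data of the core nonlinearity -/
def dt {κ : Type} {a₁ b₁ : ℝ} (h₁ : P.e.R < a₁) (h₁' : a₁ < b₁) (a₂ b₂ a₃ b₃ : ℝ)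
    (φ : κ → P.geo.R) : Nq.Dt P.geo (Fin P.e.p) κ where
  Z := P.Zc h₁ h₁'
  χ j := P.chiR j a₂ b₂
  φ := φ
  cut := P.zetaR a₃ b₃

omit ha h in
theorem dt_good {κ : Type} {a₁ b₁ a₂ b₂ a₃ b₃ : ℝ} (h₁ : P.e.R < a₁) (h₁' : a₁ < b₁)
    (h₂ : P.e.R < a₂) (h₂' : a₂ < b₂) (h₃ : P.e.R < a₃) (h₃' : a₃ < b₃) (h₄ : b₃ ≤ P.a')
    {φ : κ → P.geo.R} (hφ : ∀ i, HasCompactSupport (φ i).1) :
    (P.dt h₁ h₁' a₂ b₂ a₃ b₃ φ).Good where
  nZ := P.n_Zc h₁ h₁'
  symZ := P.sy_Zc h₁ h₁'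
  symZd := P.sy_dr_Zc h₁ h₁'
  cχ j := P.cs_zetaR_chiR P.ha' P.hab h₂ h₂' j
  cφ := hφ
  symcut := P.sy_zetaR h₃ h₃'
  cut p hp := zeta_one_of_ne P.shr.st h₃ h₃' h₄ P.hab (p := (p, 0)) p.2 hp

end Prm

end Crest.Agent.N250.Wr

end
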