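import Crest.Agent.N250.Wr.Sym
import Crest.Agent.N250.E.Pol
import Crest.Agent.N250.Master

/-!
# Row 250 (helper67): tubes, cut-offs and the weight `ρ` of a shrinker with ends
-/

set_option autoImplicit false
open Set Filter Topology
open scoped ContDiff InnerProductSpace
open Crest.GeometryTopology.MCF

noncomputable section

namespace Crest.Agent.N250.Wr

/-- smooth step, `0` at `a`, `1` at `b` -/
def st (a b t : ℝ) : ℝ := Real.smoothTransition ((t - a) / (b - a))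

theorem st_nonneg (a b t : ℝ) : 0 ≤ st a b t := Real.smoothTransition.nonneg _

theorem st_le_one (a b t : ℝ) : st a b t ≤ 1 := Real.smoothTransition.le_one _

theorem st_zero {a b t : ℝ} (h : a < b) (ht : t ≤ a) : st a b t = 0 :=
  Real.smoothTransition.zero_of_nonpos (div_nonpos_of_nonpos_of_nonneg (by linarith) (by linarith))

theorem st_one {a b t : ℝ} (h : a < b) (ht : b ≤ t) : st a b t = 1 :=
  Real.smoothTransition.one_of_one_le ((one_le_div (by linarith)).2 (by linarith))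

theorem st_zero' {a b t : ℝ} (h : b < a) (ht : a ≤ t) : st a b t = 0 :=
  Real.smoothTransition.zero_of_nonpos (div_nonpos_of_nonneg_of_nonpos (by linarith) (by linarith))

theorem st_one' {a b t : ℝ} (h : b < a) (ht : t ≤ b) : st a b t = 1 :=
  Real.smoothTransition.one_of_one_le ((one_le_div_of_neg (by linarith)).2 (by linarith))

theorem contDiff_st (a b : ℝ) : ContDiff ℝ ∞ (st a b) :=
  Real.smoothTransition.contDiff.comp ((contDiff_id.sub contDiff_const).div_const _)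

/-- `√(1 + |x|²)` -/
def rho0 (p : ST) : ℝ := √(1 + ‖p.1‖ ^ 2)

theorem one_le_rho0 (p : ST) : 1 ≤ rho0 p := Real.one_le_sqrt.2 (by nlinarith [sq_nonneg ‖p.1‖])

theorem rho0_pos (p : ST) : 0 < rho0 p := one_pos.trans_le (one_le_rho0 p)

theorem norm_le_rho0 (p : ST) : ‖p.1‖ ≤ rho0 p := Real.le_sqrt_of_sq_le (by linarith)

theorem rho0_le (p : ST) : rho0 p ≤ 1 + ‖p.1‖ :=
  Real.sqrt_le_iff.2 ⟨by positivity, by nlinarith [norm_nonneg p.1]⟩

theorem rho0_sq (p : ST) : rho0 p ^ 2 = 1 + ‖p.1‖ ^ 2 := Real.sq_sqrt (by positivity)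

/-- the region `|x| ≤ c` -/
def Bl (c : ℝ) : Set ST := {p | ‖p.1‖ ≤ c}

variable {S : Mv} (e : Ends S)

/-- the axis of the end `j` -/
def ax (j : Fin e.p) : E := e.Q j (ee 0)

/-- the axial coordinate -/
def xi (j : Fin e.p) (x : E) : ℝ := ⟪ax e j, x⟫_ℝ

/-- the squared distance to the axis -/
def r2 (j : Fin e.p) (x : E) : ℝ := ‖x‖ ^ 2 - xi e j x ^ 2

/-- the radial vector -/
def wv (j : Fin e.p) (x : E) : E := x - xi e j x • ax e j

/-- the tube `j` beyond `a` (open) -/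
def tube (j : Fin e.p) (a : ℝ) : Set ST := {p | a < xi e j p.1 ∧ r2 e j p.1 < 4}

/-- off the tube `j` beyond `a` (open) -/
def Off (j : Fin e.p) (a : ℝ) : Set ST := {p | xi e j p.1 < a ∨ 9 < r2 e j p.1}

/-- the conical region beyond `c` -/
def Con (c : ℝ) : Set ST := {p | c < ‖p.1‖ ∧ ∀ j, (e.Q j).symm p.1 ∉ cone0 e.ε}

/-- cut-off: `0` off the tube `j` and for `ξ ≤ a`, `1` on the tube for `ξ ≥ b` -/
def chi (j : Fin e.p) (a b : ℝ) (x : E) : ℝ := st 9 4 (r2 e j x) * st a b (xi e j x)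

/-- `1 - ∑ j, chi j a b` on the surface -/
def zeta (a b : ℝ) (x : E) : ℝ := ∏ j, (1 - chi e j a b x)

/-- the weight: `√(1 + |x|²)` off the tubes beyond `a`, `1` on the tubes beyond `a + 1` -/
def rho (a : ℝ) (p : ST) : ℝ := √(1 + zeta e a (a + 1) p.1 * ‖p.1‖ ^ 2)

variable {e} {i j : Fin e.p} {a b c : ℝ} {x : E} {p q : ST}

theorem norm_ax (j : Fin e.p) : ‖ax e j‖ = 1 := by simp [ax]

theorem xi_Q (j : Fin e.p) (x : E) : xi e j (e.Q j x) = x 0 := EP.ax_Q _ x

theorem xi_eq (j : Fin e.p) (x : E) : xi e j x = (e.Q j).symm x 0 := by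
  rw [← xi_Q j ((e.Q j).symm x), LinearIsometryEquiv.apply_symm_apply]

theorem r2_eq (j : Fin e.p) (x : E) : r2 e j x = EP.dz (ax e j) x ^ 2 :=
  (EP.dz_sq (norm_ax j) x).symm

theorem norm_wv (j : Fin e.p) (x : E) : ‖wv e j x‖ = EP.dz (ax e j) x := rfl

theorem r2_eq_wv (j : Fin e.p) (x : E) : r2 e j x = ‖wv e j x‖ ^ 2 := r2_eq j x

theorem r2_nonneg (j : Fin e.p) (x : E) : 0 ≤ r2 e j x := by rw [r2_eq]; positivity

theorem mem_cone (j : Fin e.p) (x : E) :
    (e.Q j).symm x ∈ cone0 e.ε ↔ ‖wv e j x‖ ≤ e.ε * xi e j x := EP.mem_cone0 _ _ x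

theorem abs_xi_le (j : Fin e.p) (x : E) : |xi e j x| ≤ ‖x‖ := by
  simpa [norm_ax, xi] using abs_real_inner_le_norm (ax e j) x

theorem xi_lip (j : Fin e.p) (x y : E) : xi e j x ≤ xi e j y + ‖x - y‖ := EP.ax_lip (norm_ax j) x y

theorem wv_lip (j : Fin e.p) (x y : E) : ‖wv e j x‖ ≤ ‖wv e j y‖ + ‖x - y‖ :=
  EP.dz_lip (norm_ax j) x y

theorem norm_le_xi_wv (j : Fin e.p) (x : E) : ‖x‖ ≤ |xi e j x| + ‖wv e j x‖ := by
  have h : x = xi e j x • ax e j + wv e j x := by simp [wv]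
  calc ‖x‖ = ‖xi e j x • ax e j + wv e j x‖ := by rw [← h]
    _ ≤ _ := (norm_add_le _ _).trans (by simp [norm_smul, norm_ax])

theorem contDiff_xi (j : Fin e.p) : ContDiff ℝ ∞ (xi e j) := contDiff_const.inner ℝ contDiff_id

theorem contDiff_r2 (j : Fin e.p) : ContDiff ℝ ∞ (r2 e j) :=
  (contDiff_norm_sq ℝ).sub ((contDiff_xi j).pow 2)

theorem contDiff_wv (j : Fin e.p) : ContDiff ℝ ∞ (wv e j) :=
  contDiff_id.sub ((contDiff_xi j).smul contDiff_const)

theorem contDiff_chi (j : Fin e.p) (a b : ℝ) : ContDiff ℝ ∞ (chi e j a b) :=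
  ((contDiff_st 9 4).comp (contDiff_r2 j)).mul ((contDiff_st a b).comp (contDiff_xi j))

theorem contDiff_zeta (a b : ℝ) : ContDiff ℝ ∞ (zeta e a b) :=
  contDiff_prod fun j _ => contDiff_const.sub (contDiff_chi j a b)

theorem isOpen_tube (j : Fin e.p) (a : ℝ) : IsOpen (tube e j a) :=
  (isOpen_lt continuous_const ((contDiff_xi j).continuous.comp continuous_fst)).inter
    (isOpen_lt ((contDiff_r2 j).continuous.comp continuous_fst) continuous_const)

theorem isOpen_Off (j : Fin e.p) (a : ℝ) : IsOpen (Off e j a) :=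
  (isOpen_lt ((contDiff_xi j).continuous.comp continuous_fst) continuous_const).union
    (isOpen_lt continuous_const ((contDiff_r2 j).continuous.comp continuous_fst))

theorem isOpen_allOff (a : ℝ) : IsOpen {p | ∀ j, p ∈ Off e j a} := by
  rw [Set.ofPred_forall]
  exact isOpen_iInter_of_finite fun j => isOpen_Off j a

theorem tube_mono (h : a ≤ b) (hp : p ∈ tube e j b) : p ∈ tube e j a := ⟨h.trans_lt hp.1, hp.2⟩

theorem Off_mono (h : a ≤ b) (hp : p ∈ Off e j a) : p ∈ Off e j b :=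
  hp.imp (fun h' => h'.trans_le h) id

theorem Con_mono (h : a ≤ b) (hp : p ∈ Con e b) : p ∈ Con e a := ⟨h.trans_lt hp.1, hp.2⟩

theorem R_pos (e : Ends S) : 3 ≤ e.R := by
  have := e.R_ge
  have := e.ε_pos
  have := e.ε_le
  by_contra h
  have h0 : 0 < e.R := by
    by_contra h'
    nlinarith
  nlinarith

theorem wv_lt_two (hp : p ∈ tube e j a) : ‖wv e j p.1‖ < 2 := by
  have := hp.2
  rw [r2_eq_wv] at this
  nlinarith [norm_nonneg (wv e j p.1)]

theorem tube_cone (hp : p ∈ tube e j e.R) : (e.Q j).symm p.1 ∈ cone0 e.ε := by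
  rw [mem_cone]
  have := wv_lt_two hp
  have := e.R_ge
  have := mul_lt_mul_of_pos_left hp.1 e.ε_pos
  linarith

theorem tube_disj (hij : i ≠ j) (hp : p ∈ tube e j e.R) : p ∉ tube e i e.R := fun h => by
  refine e.disj i j hij p.1 (fun h0 => ?_) (tube_cone h) (tube_cone hp)
  have := hp.1
  have := R_pos e
  simp only [h0, xi, inner_zero_right] at *
  linarith

theorem norm_le_of_tube (hp : p ∈ tube e j a) (ha : 0 ≤ a) : ‖p.1‖ ≤ xi e j p.1 + 2 := by
  have := norm_le_xi_wv j p.1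
  rw [abs_of_pos (ha.trans_lt hp.1)] at this
  linarith [wv_lt_two hp]

theorem chi_nonneg (j : Fin e.p) (a b : ℝ) (x : E) : 0 ≤ chi e j a b x :=
  mul_nonneg (st_nonneg _ _ _) (st_nonneg _ _ _)

theorem chi_le_one (j : Fin e.p) (a b : ℝ) (x : E) : chi e j a b x ≤ 1 :=
  mul_le_one₀ (st_le_one _ _ _) (st_nonneg _ _ _) (st_le_one _ _ _)

theorem chi_tube (hp : p ∈ tube e j c) : chi e j a b p.1 = st a b (xi e j p.1) := by
  rw [chi, st_one' (by norm_num) hp.2.le, one_mul]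

theorem chi_one (h : a < b) (hp : p ∈ tube e j b) : chi e j a b p.1 = 1 := by
  rw [chi_tube hp, st_one h hp.1.le]

theorem chi_zero (h : a < b) (hp : p ∈ Off e j a) : chi e j a b p.1 = 0 := by
  rcases hp with hp | hp
  · rw [chi, st_zero h hp.le, mul_zero]
  · rw [chi, st_zero' (by norm_num) hp.le, zero_mul]

theorem chi_zero_of_le (h : a < b) (hx : xi e j x ≤ a) : chi e j a b x = 0 := by
  rw [chi, st_zero h hx, mul_zero]

theorem zeta_nonneg (a b : ℝ) (x : E) : 0 ≤ zeta e a b x :=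
  Finset.prod_nonneg fun j _ => sub_nonneg.2 (chi_le_one j a b x)

theorem zeta_le_one (a b : ℝ) (x : E) : zeta e a b x ≤ 1 :=
  Finset.prod_le_one (fun j _ => sub_nonneg.2 (chi_le_one j a b x))
    fun j _ => sub_le_self _ (chi_nonneg j a b x)

theorem zeta_zero (h : a < b) (hp : p ∈ tube e j b) : zeta e a b p.1 = 0 :=
  Finset.prod_eq_zero (Finset.mem_univ j) (by rw [chi_one h hp, sub_self])

theorem zeta_one (h : a < b) (hp : ∀ j, p ∈ Off e j a) : zeta e a b p.1 = 1 :=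
  Finset.prod_eq_one fun j _ => by rw [chi_zero h (hp j), sub_zero]

theorem rho_arg_pos (a : ℝ) (x : E) : 1 ≤ 1 + zeta e a (a + 1) x * ‖x‖ ^ 2 := by
  have := zeta_nonneg (e := e) a (a + 1) x
  nlinarith [mul_nonneg this (sq_nonneg ‖x‖)]

theorem one_le_rho (a : ℝ) (p : ST) : 1 ≤ rho e a p := Real.one_le_sqrt.2 (rho_arg_pos a p.1)

theorem rho_pos (a : ℝ) (p : ST) : 0 < rho e a p := one_pos.trans_le (one_le_rho a p)

theorem rho_sq (a : ℝ) (p : ST) : rho e a p ^ 2 = 1 + zeta e a (a + 1) p.1 * ‖p.1‖ ^ 2 :=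
  Real.sq_sqrt (zero_le_one.trans (rho_arg_pos a p.1))

theorem rho_le_rho0 (a : ℝ) (p : ST) : rho e a p ≤ rho0 p :=
  Real.sqrt_le_sqrt (by nlinarith [zeta_le_one (e := e) a (a + 1) p.1, sq_nonneg ‖p.1‖])

theorem rho_tube (hp : p ∈ tube e j (a + 1)) : rho e a p = 1 := by
  rw [rho, zeta_zero (by linarith) hp]; simp

theorem rho_off (hp : ∀ j, p ∈ Off e j a) : rho e a p = rho0 p := by
  rw [rho, zeta_one (by linarith) hp, one_mul, rho0]

theorem contDiff_rhoE (a : ℝ) :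
    ContDiff ℝ ∞ fun x : E => √(1 + zeta e a (a + 1) x * ‖x‖ ^ 2) :=
  (contDiff_const.add ((contDiff_zeta a (a + 1)).mul (contDiff_norm_sq ℝ))).sqrt
    fun x => (one_pos.trans_le (rho_arg_pos a x)).ne'

theorem contDiff_rho (a : ℝ) : ContDiff ℝ ∞ (rho e a) := (contDiff_rhoE a).comp contDiff_fst

theorem rho_le_of_tube (ha : 0 ≤ c) (hp : p ∈ tube e j c) : rho e a p ≤ |a| + 4 := by
  by_cases h : a + 1 < xi e j p.1
  · rw [rho_tube (j := j) ⟨h, hp.2⟩]
    linarith [abs_nonneg a]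
  · have := norm_le_of_tube hp ha
    linarith [rho_le_rho0 (e := e) a p, rho0_le p, le_abs_self a, not_lt.1 h]

theorem con_off (ha : e.R < a) (hp : ∀ j, (e.Q j).symm p.1 ∉ cone0 e.ε) (j : Fin e.p) :
    p ∈ Off e j a := by
  by_cases h : xi e j p.1 < a
  · exact Or.inl h
  · have h1 := hp j
    rw [mem_cone, not_le] at h1
    have := e.R_ge
    have := mul_lt_mul_of_pos_left (ha.trans_le (not_lt.1 h)) e.ε_pos
    refine Or.inr ?_
    rw [r2_eq_wv]
    nlinarith

section St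
variable (hS : S.Static)
include hS

/-- a point of the surface in the cone `j` beyond `R` is a point of the polar graph -/
theorem exists_pol (hp : p ∈ S.M) (hc : (e.Q j).symm p.1 ∈ cone0 e.ε) (hR : e.R < xi e j p.1) :
    ∃ θ, p.1 = e.Q j (cylP (xi e j p.1) (e.r j (xi e j p.1, θ)) θ) := by
  rw [xi_eq] at hR ⊢
  have h1 : e.Q j ((e.Q j).symm p.1) ∈ S.sl 0 := by
    rw [LinearIsometryEquiv.apply_symm_apply]
    exact (hS.mem p.1 p.2).1 hp
  obtain ⟨θ, h⟩ := (e.tube j _ hc hR).1 h1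
  exact ⟨θ, by rw [← h, LinearIsometryEquiv.apply_symm_apply]⟩

omit hS in
theorem wv_pol (j : Fin e.p) (s r θ : ℝ) : ‖wv e j (e.Q j (cylP s r θ))‖ = |r| := by
  rw [norm_wv, ← EP.pol_bQ, ax, ← EP.bQ_apply, EP.dz_pol]

theorem cone_tube (hp : p ∈ S.M) (hc : (e.Q j).symm p.1 ∈ cone0 e.ε) (hR : e.R < xi e j p.1) :
    p ∈ tube e j e.R ∧ 1 < ‖wv e j p.1‖ := by
  obtain ⟨θ, h⟩ := exists_pol hS hp hc hR
  have h1 := e.near j (xi e j p.1, θ) hR
  have h2 : ‖wv e j p.1‖ = e.r j (xi e j p.1, θ) := by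
    conv_lhs => rw [h]
    rw [wv_pol, abs_of_pos (by linarith)]
  refine ⟨⟨hR, ?_⟩, by linarith⟩
  rw [r2_eq_wv, h2]
  nlinarith

theorem one_lt_wv (hp : p ∈ S.M) (ht : p ∈ tube e j e.R) : 1 < ‖wv e j p.1‖ :=
  (cone_tube hS hp (tube_cone ht) ht.1).2

/-- the dichotomy -/
theorem tube_or_off (ha : e.R < a) (hp : p ∈ S.M) (j : Fin e.p) :
    p ∈ tube e j e.R ∨ p ∈ Off e j a := by
  by_cases h : xi e j p.1 < a
  · exact Or.inr (Or.inl h)
  · by_cases hc : (e.Q j).symm p.1 ∈ cone0 e.ε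
    · exact Or.inl (cone_tube hS hp hc (ha.trans_le (not_lt.1 h))).1
    · rw [mem_cone, not_le] at hc
      have := e.R_ge
      have := mul_lt_mul_of_pos_left (ha.trans_le (not_lt.1 h)) e.ε_pos
      refine Or.inr (Or.inr ?_)
      rw [r2_eq_wv]
      nlinarith

theorem tube_or_off' (ha : e.R < a) (hb : b < a) (hp : p ∈ S.M) (j : Fin e.p) :
    p ∈ tube e j b ∨ p ∈ Off e j a := by
  by_cases h : xi e j p.1 < a
  · exact Or.inr (Or.inl h)
  · exact (tube_or_off hS ha hp j).imp (fun h' => ⟨hb.trans_le (not_lt.1 h), h'.2⟩) id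

theorem off_of_tube (ha : e.R < a) (hij : i ≠ j) (hp : p ∈ S.M) (ht : p ∈ tube e j e.R) :
    p ∈ Off e i a := (tube_or_off hS ha hp i).resolve_left (tube_disj hij ht)

theorem zeta_tube (ha : e.R < a) (h : a < b) (hp : p ∈ S.M) (ht : p ∈ tube e j e.R) :
    zeta e a b p.1 = 1 - chi e j a b p.1 :=
  Finset.prod_eq_single j (fun i _ hi => by rw [chi_zero h (off_of_tube hS ha hi hp ht), sub_zero])
    (fun h => (h (Finset.mem_univ j)).elim)

theorem sum_chi_tube (ha : e.R < a) (h : a < b) (hp : p ∈ S.M) (ht : p ∈ tube e j e.R)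
    {G : Type} [AddCommGroup G] [Module ℝ G] (v : Fin e.p → G) :
    ∑ i, chi e i a b p.1 • v i = chi e j a b p.1 • v j :=
  Finset.sum_eq_single j (fun i _ hi => by rw [chi_zero h (off_of_tube hS ha hi hp ht), zero_smul])
    (fun h => (h (Finset.mem_univ j)).elim)

theorem tube_or_allOff (ha : e.R < a) (hp : p ∈ S.M) :
    (∃ j, p ∈ tube e j e.R) ∨ ∀ j, p ∈ Off e j a := by
  by_cases h : ∃ j, p ∈ tube e j e.R
  · exact Or.inl h
  · exact Or.inr fun j => (tube_or_off hS ha hp j).resolve_left fun h' => h ⟨j, h'⟩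

/-- partition of unity -/
theorem zeta_add_sum (ha : e.R < a) (h : a < b) (hp : p ∈ S.M) :
    zeta e a b p.1 + ∑ j, chi e j a b p.1 = 1 := by
  rcases tube_or_allOff hS ha hp with ⟨j, hj⟩ | ho
  · have := sum_chi_tube hS ha h hp hj fun _ => (1 : ℝ)
    simp only [smul_eq_mul, mul_one] at this
    rw [this, zeta_tube hS ha h hp hj]
    ring
  · rw [zeta_one h ho, Finset.sum_eq_zero fun j _ => chi_zero h (ho j), add_zero]

/-- the three regions -/
theorem three (hb : e.R ≤ b) (hc : 2 * b ≤ c) (hp : p ∈ S.M) :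
    p ∈ Bl c ∨ p ∈ Con e c ∨ ∃ j, p ∈ tube e j b := by
  by_cases h0 : ‖p.1‖ ≤ c
  · exact Or.inl h0
  · by_cases h1 : ∀ j, (e.Q j).symm p.1 ∉ cone0 e.ε
    · exact Or.inr (Or.inl ⟨not_le.1 h0, h1⟩)
    · obtain ⟨j, hj⟩ := not_forall.1 h1
      have hj := not_not.1 hj
      have h2 := (mem_cone j p.1).1 hj
      have h3 := norm_le_xi_wv j p.1
      have h4 : 0 ≤ xi e j p.1 := by
        by_contra h
        nlinarith [norm_nonneg (wv e j p.1), e.ε_pos]
      rw [abs_of_nonneg h4] at h3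
      have h5 : b < xi e j p.1 := by nlinarith [e.ε_le, not_le.1 h0]
      exact Or.inr (Or.inr ⟨j, h5, (cone_tube hS hp hj (hb.trans_lt h5)).1.2⟩)

/-- the weight is slowly varying -/
theorem rho_slow (ha : e.R < a) : ∃ C : ℝ, 1 ≤ C ∧ ∀ p ∈ S.M, ∀ q ∈ S.M,
    rho e a p ≤ C * (rho e a q + ‖p.1 - q.1‖) := by
  have hε := e.ε_pos
  have hR := R_pos e
  have h6 : 0 < 6 / e.ε := by positivity
  refine ⟨|a| + 4 + e.R + 6 / e.ε, by linarith [abs_nonneg a], fun p hp q hq => ?_⟩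
  have hq1 := one_le_rho (e := e) a q
  have hd := norm_nonneg (p.1 - q.1)
  have ha0 := abs_nonneg a
  have h1 : rho e a p ≤ 1 + ‖q.1‖ + ‖p.1 - q.1‖ := by
    have := norm_add_le q.1 (p.1 - q.1)
    rw [add_sub_cancel] at this
    linarith [rho_le_rho0 (e := e) a p, rho0_le p]
  rcases tube_or_allOff hS ha hq with ⟨j, hj⟩ | ho
  · have h2 := norm_le_of_tube hj (by linarith)
    have h3 := xi_lip j q.1 p.1
    rw [norm_sub_rev] at h3
    by_cases h : xi e j p.1 ≤ e.R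
    · nlinarith
    · by_cases hc : (e.Q j).symm p.1 ∈ cone0 e.ε
      · have := rho_le_of_tube (a := a) (by linarith) (cone_tube hS hp hc (not_le.1 h)).1
        nlinarith
      · rw [mem_cone, not_le] at hc
        have h4 := wv_lip j p.1 q.1
        have h5 := wv_lt_two hj
        have h7 : xi e j p.1 ≤ 6 / e.ε * (1 + ‖p.1 - q.1‖) := by
          rw [div_mul_eq_mul_div, le_div_iff₀ hε]
          nlinarith
        nlinarith
  · have := norm_le_rho0 q
    rw [← rho_off ho] at this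
    nlinarith

end St

end Crest.Agent.N250.Wr

end
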