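import Crest.Agent.N250.Re.Pt

/-!
# Row 250 (helper67): symbol calculus on a moving surface

`Sym F ρ U m f`: `f` is smooth on the track and `|δ^l f| ≤ C ρ^(m - |l|)` on `U`.
-/

set_option autoImplicit false
open Set Filter Topology
open scoped ContDiff InnerProductSpace
open Crest.GeometryTopology.MCF

noncomputable section

namespace Crest.Agent.N250.Wr

variable {F : Mv} {ρ ρ' : ST → ℝ} {U U' : Set ST} {m n : ℤ} {f g : ST → ℝ}

/-- `|f| ≤ C ρ^m` on `U` -/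
def Bd (F : Mv) (ρ : ST → ℝ) (U : Set ST) (m : ℤ) (f : ST → ℝ) : Prop :=
  ∃ C : ℝ, 0 ≤ C ∧ ∀ p ∈ F.M, p ∈ U → |f p| ≤ C * ρ p ^ m

/-- symbols of order `m` on `U` -/
def Sym (F : Mv) (ρ : ST → ℝ) (U : Set ST) (m : ℤ) (f : ST → ℝ) : Prop :=
  F.Sm f ∧ ∀ l : List (Fin 3), Bd F ρ U (m - l.length) (F.DL l f)

/-- positivity of the weight -/
def Pos (F : Mv) (ρ : ST → ℝ) (U : Set ST) : Prop := ∀ p ∈ F.M, p ∈ U → 0 < ρ p

/-- `f = g` near the points of `U` -/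
def EqN (F : Mv) (U : Set ST) (f g : ST → ℝ) : Prop := ∀ p ∈ F.M, p ∈ U → f =ᶠ[𝓝[F.M] p] g

theorem EqN.of_on (e : ∀ q ∈ F.M, f q = g q) : EqN F U f g := fun _ _ _ => Mv.ev_of_eqOn e

theorem EqN.eq (e : EqN F U f g) {p : ST} (hp : p ∈ F.M) (hU : p ∈ U) : f p = g p :=
  (e p hp hU).self_of_nhdsWithin hp

theorem EqN.symm (e : EqN F U f g) : EqN F U g f := fun p hp hU => (e p hp hU).symm

theorem EqN.D (e : EqN F U f g) (a : Fin 3) : EqN F U (F.D a f) (F.D a g) :=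
  fun p hp hU => Mv.eventually_D_congr (e p hp hU) a

theorem EqN.DL (e : EqN F U f g) (l : List (Fin 3)) : EqN F U (F.DL l f) (F.DL l g) :=
  fun p hp hU => Mv.DL_congr (e p hp hU) l

theorem EqN.of_open {O : Set ST} (hO : IsOpen O) (hU : ∀ p ∈ F.M, p ∈ U → p ∈ O)
    (e : ∀ q ∈ F.M, q ∈ O → f q = g q) : EqN F U f g := fun p hp hpU => by
  filter_upwards [mem_nhdsWithin_of_mem_nhds (hO.mem_nhds (hU p hp hpU)), self_mem_nhdsWithin]
    with q h1 h2 using e q h2 h1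

theorem Pos.mono (h : Pos F ρ U) (hU : ∀ p ∈ F.M, p ∈ U' → p ∈ U) : Pos F ρ U' :=
  fun p hp h' => h p hp (hU p hp h')

theorem pos_one : Pos F (fun _ => 1) U := fun _ _ _ => one_pos

theorem DL_cons (a : Fin 3) (l : List (Fin 3)) (f : ST → ℝ) :
    F.DL (a :: l) f = F.D a (F.DL l f) := rfl

theorem DL_concat (a : Fin 3) (l : List (Fin 3)) (f : ST → ℝ) :
    F.DL (l ++ [a]) f = F.DL l (F.D a f) := by simp [Mv.DL]

/-! ### bounds -/

theorem bd_of (hρ : Pos F ρ U) {C : ℝ} (h : ∀ p ∈ F.M, p ∈ U → |f p| ≤ C * ρ p ^ m) :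
    Bd F ρ U m f :=
  ⟨max C 0, le_max_right _ _, fun p hp hU => (h p hp hU).trans
    (mul_le_mul_of_nonneg_right (le_max_left _ _) (zpow_pos (hρ p hp hU) _).le)⟩

theorem Bd.mono (h : Bd F ρ U m f) (hU : ∀ p ∈ F.M, p ∈ U' → p ∈ U) : Bd F ρ U' m f :=
  let ⟨C, h0, h⟩ := h; ⟨C, h0, fun p hp h' => h p hp (hU p hp h')⟩

theorem Bd.congr (h : Bd F ρ U m f) (e : ∀ p ∈ F.M, p ∈ U → g p = f p) : Bd F ρ U m g :=
  let ⟨C, h0, h⟩ := h; ⟨C, h0, fun p hp hU => by rw [e p hp hU]; exact h p hp hU⟩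

theorem Bd.cast (h : Bd F ρ U m f) (e : m = n) : Bd F ρ U n f := e ▸ h

theorem Bd.add (hf : Bd F ρ U m f) (hg : Bd F ρ U m g) : Bd F ρ U m (f + g) := by
  obtain ⟨C, h0, h⟩ := hf
  obtain ⟨C', h0', h'⟩ := hg
  refine ⟨C + C', by positivity, fun p hp hU => ?_⟩
  have := abs_add_le (f p) (g p)
  have := h p hp hU
  have := h' p hp hU
  simp only [Pi.add_apply]
  linarith

theorem Bd.mul (hρ : Pos F ρ U) (hf : Bd F ρ U m f) (hg : Bd F ρ U n g) :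
    Bd F ρ U (m + n) (f * g) := by
  obtain ⟨C, h0, h⟩ := hf
  obtain ⟨C', h0', h'⟩ := hg
  refine ⟨C * C', by positivity, fun p hp hU => ?_⟩
  have hp0 := hρ p hp hU
  rw [Pi.mul_apply, abs_mul, zpow_add₀ hp0.ne']
  calc |f p| * |g p| ≤ (C * ρ p ^ m) * (C' * ρ p ^ n) :=
        mul_le_mul (h p hp hU) (h' p hp hU) (abs_nonneg _) (by positivity)
    _ = _ := by ring

theorem Bd.union (hρ : Pos F ρ (U ∪ U')) (h : Bd F ρ U m f) (h' : Bd F ρ U' m f) :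
    Bd F ρ (U ∪ U') m f := by
  obtain ⟨C, h0, h⟩ := h
  obtain ⟨C', h0', h'⟩ := h'
  refine ⟨C + C', by positivity, fun p hp hU => ?_⟩
  have hp0 := zpow_pos (hρ p hp hU) m
  rcases hU with hU | hU
  · have := h p hp hU
    nlinarith
  · have := h' p hp hU
    nlinarith

theorem zpow_le_of_cmp {x y K : ℝ} (hx : 0 < x) (hy : 0 < y) (h1 : x ≤ K * y) (h2 : y ≤ K * x)
    (m : ℤ) : x ^ m ≤ K ^ m.natAbs * y ^ m := by
  have hK : 0 < K := by
    by_contra h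
    nlinarith [not_lt.1 h]
  obtain ⟨k, rfl | rfl⟩ := Int.eq_nat_or_neg m
  · rw [Int.natAbs_natCast, zpow_natCast, zpow_natCast, ← mul_pow]
    exact pow_le_pow_left₀ hx.le h1 k
  · rw [Int.natAbs_neg, Int.natAbs_natCast, zpow_neg, zpow_neg, zpow_natCast, zpow_natCast,
      ← div_eq_mul_inv, le_div_iff₀ (pow_pos hy k), inv_mul_le_iff₀ (pow_pos hx k), ← mul_pow]
    exact pow_le_pow_left₀ hy.le (by linarith) k

/-- change of weight -/
theorem Bd.weight (hρ : Pos F ρ U) (hρ' : Pos F ρ' U) {K : ℝ}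
    (h1 : ∀ p ∈ F.M, p ∈ U → ρ p ≤ K * ρ' p) (h2 : ∀ p ∈ F.M, p ∈ U → ρ' p ≤ K * ρ p)
    (h : Bd F ρ U m f) : Bd F ρ' U m f := by
  obtain ⟨C, h0, h⟩ := h
  refine bd_of hρ' (C := C * K ^ m.natAbs) fun p hp hU => (h p hp hU).trans ?_
  rw [mul_assoc]
  exact mul_le_mul_of_nonneg_left
    (zpow_le_of_cmp (hρ p hp hU) (hρ' p hp hU) (h1 p hp hU) (h2 p hp hU) m) h0

theorem Bd.one_cast (h : Bd F (fun _ => 1) U m f) : Bd F (fun _ => 1) U n f := by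
  obtain ⟨C, h0, h⟩ := h
  exact ⟨C, h0, fun p hp hU => by simpa using h p hp hU⟩

theorem Bd.le (h1 : ∀ p ∈ F.M, p ∈ U → 1 ≤ ρ p) (hmn : m ≤ n) (h : Bd F ρ U m f) :
    Bd F ρ U n f := by
  obtain ⟨C, h0, h⟩ := h
  exact ⟨C, h0, fun p hp hU => (h p hp hU).trans
    (mul_le_mul_of_nonneg_left (zpow_le_zpow_right₀ (h1 p hp hU) hmn) h0)⟩

theorem bd_zero (m : ℤ) : Bd F ρ U m fun _ => 0 := ⟨0, le_rfl, fun p _ _ => by simp⟩

theorem bd_const (c : ℝ) : Bd F ρ U 0 fun _ => c := ⟨|c|, abs_nonneg _, fun p _ _ => by simp⟩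

/-! ### symbols -/

theorem Sym.sm (h : Sym F ρ U m f) : F.Sm f := h.1

theorem Sym.bd (h : Sym F ρ U m f) : Bd F ρ U m f := by simpa [Mv.DL] using h.2 []

theorem Sym.cast (h : Sym F ρ U m f) (e : m = n) : Sym F ρ U n f := e ▸ h

theorem Sym.D (hF : F.Reg) (h : Sym F ρ U m f) (a : Fin 3) : Sym F ρ U (m - 1) (F.D a f) :=
  ⟨hF.sm_D h.1 a, fun l => by
    have := h.2 (l ++ [a])
    rw [DL_concat] at this
    exact this.cast (by simp; ring)⟩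

theorem Sym.DL (hF : F.Reg) (h : Sym F ρ U m f) (l : List (Fin 3)) :
    Sym F ρ U (m - l.length) (F.DL l f) := by
  induction l with
  | nil => simpa [Mv.DL] using h
  | cons a l ih => exact (ih.D hF a).cast (by simp; ring)

theorem Sym.mono (h : Sym F ρ U m f) (hU : ∀ p ∈ F.M, p ∈ U' → p ∈ U) : Sym F ρ U' m f :=
  ⟨h.1, fun l => (h.2 l).mono hU⟩

theorem Sym.congrN (h : Sym F ρ U m f) (hg : F.Sm g) (e : EqN F U g f) : Sym F ρ U m g :=
  ⟨hg, fun l => (h.2 l).congr fun _ hp hU => (e.DL l).eq hp hU⟩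

theorem Sym.congr (h : Sym F ρ U m f) (e : ∀ p ∈ F.M, g p = f p) : Sym F ρ U m g :=
  h.congrN (h.1.congr e) (.of_on e)

theorem Sym.union (hρ : Pos F ρ (U ∪ U')) (h : Sym F ρ U m f) (h' : Sym F ρ U' m f) :
    Sym F ρ (U ∪ U') m f := ⟨h.1, fun l => (h.2 l).union hρ (h'.2 l)⟩

theorem Sym.weight (hρ : Pos F ρ U) (hρ' : Pos F ρ' U) {K : ℝ}
    (h1 : ∀ p ∈ F.M, p ∈ U → ρ p ≤ K * ρ' p) (h2 : ∀ p ∈ F.M, p ∈ U → ρ' p ≤ K * ρ p)
    (h : Sym F ρ U m f) : Sym F ρ' U m f := ⟨h.1, fun l => (h.2 l).weight hρ hρ' h1 h2⟩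

theorem Sym.one_cast (h : Sym F (fun _ => 1) U m f) : Sym F (fun _ => 1) U n f :=
  ⟨h.1, fun l => (h.2 l).one_cast⟩

theorem Sym.le (h1 : ∀ p ∈ F.M, p ∈ U → 1 ≤ ρ p) (hmn : m ≤ n) (h : Sym F ρ U m f) :
    Sym F ρ U n f := ⟨h.1, fun l => (h.2 l).le h1 (by omega)⟩

/-- the graded algebra generated by the class `𝒞` and the symbols -/
inductive Gen (F : Mv) (ρ : ST → ℝ) (U : Set ST) (𝒞 : ℤ → (ST → ℝ) → Prop) :
    ℤ → (ST → ℝ) → Prop
  | base {m : ℤ} {f : ST → ℝ} : 𝒞 m f → Gen F ρ U 𝒞 m f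
  | sym {m : ℤ} {f : ST → ℝ} : Sym F ρ U m f → Gen F ρ U 𝒞 m f
  | add {m : ℤ} {f g : ST → ℝ} : Gen F ρ U 𝒞 m f → Gen F ρ U 𝒞 m g → Gen F ρ U 𝒞 m (f + g)
  | mul {m n : ℤ} {f g : ST → ℝ} :
      Gen F ρ U 𝒞 m f → Gen F ρ U 𝒞 n g → Gen F ρ U 𝒞 (m + n) (f * g)
  | congrN {m : ℤ} {f g : ST → ℝ} : Gen F ρ U 𝒞 m f → F.Sm g → EqN F U g f → Gen F ρ U 𝒞 m g

variable {𝒞 : ℤ → (ST → ℝ) → Prop}

theorem Gen.cast (h : Gen F ρ U 𝒞 m f) (e : m = n) : Gen F ρ U 𝒞 n f := e ▸ h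

/-- coinduction: a class whose derivatives lie in the algebra it generates consists of symbols -/
theorem Gen.toSym (hF : F.Reg) (hρ : Pos F ρ U) (hs : ∀ m f, 𝒞 m f → F.Sm f)
    (hb : ∀ m f, 𝒞 m f → Bd F ρ U m f)
    (hD : ∀ m f, 𝒞 m f → ∀ a, Gen F ρ U 𝒞 (m - 1) (F.D a f))
    (h : Gen F ρ U 𝒞 m f) : Sym F ρ U m f := by
  have h1 : ∀ {m f}, Gen F ρ U 𝒞 m f → F.Sm f ∧ Bd F ρ U m f := by
    intro m f h
    induction h with
    | base h => exact ⟨hs _ _ h, hb _ _ h⟩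
    | sym h => exact ⟨h.1, h.bd⟩
    | add _ _ i j => exact ⟨i.1.add j.1, i.2.add j.2⟩
    | mul _ _ i j => exact ⟨i.1.mul j.1, i.2.mul hρ j.2⟩
    | congrN _ hg e i => exact ⟨hg, i.2.congr fun _ hp hU => e.eq hp hU⟩
  have h2 : ∀ {m f}, Gen F ρ U 𝒞 m f → ∀ a, Gen F ρ U 𝒞 (m - 1) (F.D a f) := by
    intro m f h a
    induction h with
    | base h => exact hD _ _ h a
    | sym h => exact .sym (h.D hF a)
    | add hf hg i j =>
      exact (i.add j).congrN (hF.sm_D ((h1 hf).1.add (h1 hg).1) a)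
        (.of_on fun p hp => hF.D_add hp (h1 hf).1 (h1 hg).1 a)
    | @mul m n f g hf hg i j =>
      exact (((hf.mul j).cast (by ring : _ = m + n - 1)).add
        ((i.mul hg).cast (by ring))).congrN (hF.sm_D ((h1 hf).1.mul (h1 hg).1) a)
        (.of_on fun p hp => hF.D_mul hp (h1 hf).1 (h1 hg).1 a)
    | congrN _ hg e i => exact i.congrN (hF.sm_D hg a) (e.D a)
  refine ⟨(h1 h).1, fun l => (h1 ?_).2⟩
  induction l with
  | nil => simpa [Mv.DL] using h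
  | cons a l ih => exact (h2 ih a).cast (by simp; ring)

theorem Gen.toSym0 (hF : F.Reg) (hρ : Pos F ρ U) (h : Gen F ρ U (fun _ _ => False) m f) :
    Sym F ρ U m f :=
  h.toSym hF hρ (fun _ _ h => h.elim) (fun _ _ h => h.elim) (fun _ _ h => h.elim)

theorem sym_zero (hF : F.Reg) (hρ : Pos F ρ U) (m : ℤ) : Sym F ρ U m fun _ => 0 := by
  refine Gen.toSym (𝒞 := fun _ f => f = fun _ => 0) hF hρ (fun _ _ h => h ▸ Mv.sm_const 0)
    (fun m _ h => h ▸ bd_zero m) ?_ (.base rfl)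
  rintro _ _ rfl a
  exact (Gen.base rfl).congrN (hF.sm_D (Mv.sm_const 0) a) (.of_on fun _ hp => hF.D_const hp 0 a)

/-- one step unfolding -/
theorem sym_of_D (hf : F.Sm f) (hb : Bd F ρ U m f) (hD : ∀ a, Sym F ρ U (m - 1) (F.D a f)) :
    Sym F ρ U m f := ⟨hf, fun l => by
  rcases List.eq_nil_or_concat l with rfl | ⟨l, a, rfl⟩
  · simpa [Mv.DL] using hb
  · rw [List.concat_eq_append, DL_concat]
    exact ((hD a).2 l).cast (by simp; ring)⟩

theorem sym_const (hF : F.Reg) (hρ : Pos F ρ U) (c : ℝ) : Sym F ρ U 0 fun _ => c :=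
  sym_of_D (Mv.sm_const c) (bd_const c) fun a =>
    (sym_zero hF hρ _).congr fun _ hp => hF.D_const hp c a

section
variable (hF : F.Reg) (hρ : Pos F ρ U)
include hF hρ

theorem Sym.add (hf : Sym F ρ U m f) (hg : Sym F ρ U m g) : Sym F ρ U m (f + g) :=
  ((Gen.sym hf).add (.sym hg)).toSym0 hF hρ

theorem Sym.mul (hf : Sym F ρ U m f) (hg : Sym F ρ U n g) : Sym F ρ U (m + n) (f * g) :=
  ((Gen.sym hf).mul (.sym hg)).toSym0 hF hρ

theorem Sym.mul' {k : ℤ} (hf : Sym F ρ U m f) (hg : Sym F ρ U n g) (e : m + n = k) :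
    Sym F ρ U k fun p => f p * g p := (hf.mul hF hρ hg).cast e

theorem Sym.const_mul (c : ℝ) (hf : Sym F ρ U m f) : Sym F ρ U m fun p => c * f p :=
  (sym_const hF hρ c).mul' hF hρ hf (zero_add m)

theorem Sym.neg (hf : Sym F ρ U m f) : Sym F ρ U m (-f) :=
  (hf.const_mul hF hρ (-1)).congr fun p _ => by simp

theorem Sym.sub (hf : Sym F ρ U m f) (hg : Sym F ρ U m g) : Sym F ρ U m (f - g) :=
  (hf.add hF hρ (hg.neg hF hρ)).congr fun p _ => by simp [sub_eq_add_neg]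

theorem Sym.add' (hf : Sym F ρ U m f) (hg : Sym F ρ U m g) : Sym F ρ U m fun p => f p + g p :=
  hf.add hF hρ hg

theorem Sym.sub' (hf : Sym F ρ U m f) (hg : Sym F ρ U m g) : Sym F ρ U m fun p => f p - g p :=
  hf.sub hF hρ hg

theorem Sym.sum {κ : Type} {s : Finset κ} {f : κ → ST → ℝ} (hf : ∀ i ∈ s, Sym F ρ U m (f i)) :
    Sym F ρ U m (∑ i ∈ s, f i) := by
  classical
  induction s using Finset.induction_on with
  | empty => exact sym_zero hF hρ m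
  | insert i s hi ih =>
    rw [Finset.sum_insert hi]
    exact (hf i (Finset.mem_insert_self _ _)).add hF hρ
      (ih fun j hj => hf j (Finset.mem_insert_of_mem hj))

theorem Sym.sum' {κ : Type} {s : Finset κ} {f : κ → ST → ℝ} (hf : ∀ i ∈ s, Sym F ρ U m (f i)) :
    Sym F ρ U m fun p => ∑ i ∈ s, f i p :=
  (Sym.sum hF hρ hf).congr fun p _ => by simp

theorem Sym.prod0 {κ : Type} {s : Finset κ} {f : κ → ST → ℝ} (hf : ∀ i ∈ s, Sym F ρ U 0 (f i)) :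
    Sym F ρ U 0 fun p => ∏ i ∈ s, f i p := by
  classical
  induction s using Finset.induction_on with
  | empty => simpa using sym_const hF hρ 1
  | insert i s hi ih =>
    simp only [Finset.prod_insert hi]
    exact (hf i (Finset.mem_insert_self _ _)).mul' hF hρ
      (ih fun j hj => hf j (Finset.mem_insert_of_mem hj)) (add_zero 0)

theorem Sym.pow (hf : Sym F ρ U m f) (k : ℕ) : Sym F ρ U (k * m) fun p => f p ^ k := by
  induction k with
  | zero => simpa using sym_const hF hρ 1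
  | succ k ih => exact (ih.mul' hF hρ hf (by push_cast; ring)).congr fun p _ => pow_succ _ _

/-- the inverse of an elliptic symbol -/
theorem Sym.inv (hf : Sym F ρ U m f) (h0 : ∀ p ∈ F.M, f p ≠ 0) {c : ℝ} (hc : 0 < c)
    (hl : ∀ p ∈ F.M, p ∈ U → c * ρ p ^ m ≤ |f p|) : Sym F ρ U (-m) fun p => (f p)⁻¹ := by
  have hs : F.Sm fun p => (f p)⁻¹ := ContDiffOn.inv hf.1 h0
  refine Gen.toSym (𝒞 := fun k g => k = -m ∧ g = fun p => (f p)⁻¹) hF hρ
    (fun _ _ h => h.2 ▸ hs) ?_ ?_ (.base ⟨rfl, rfl⟩)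
  · rintro _ _ ⟨rfl, rfl⟩
    refine ⟨c⁻¹, by positivity, fun p hp hU => ?_⟩
    have := zpow_pos (hρ p hp hU) m
    rw [abs_inv, zpow_neg, ← mul_inv]
    exact inv_anti₀ (by positivity) (hl p hp hU)
  · rintro _ _ ⟨rfl, rfl⟩ a
    have b : Gen F ρ U (fun k g => k = -m ∧ g = fun p => (f p)⁻¹) (-m) fun p => (f p)⁻¹ :=
      .base ⟨rfl, rfl⟩
    refine (((b.mul b).mul (.sym ((hf.D hF a).neg hF hρ))).cast (by ring)).congrN (hF.sm_D hs a)
      (.of_on fun p hp => ?_)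
    rw [hF.D_comp hp hf.1 (hasDerivAt_inv (h0 p hp)) a]
    simp only [Pi.mul_apply, Pi.neg_apply]
    have := h0 p hp
    field_simp

/-- composition with a smooth function of one variable -/
theorem Sym.comp {O K : Set ℝ} (hO : IsOpen O) (hK : IsCompact K) (hKO : K ⊆ O)
    (hf : Sym F ρ U 0 f) (hfO : ∀ p ∈ F.M, f p ∈ O) (hfK : ∀ p ∈ F.M, p ∈ U → f p ∈ K)
    {ψ : ℝ → ℝ} (hψ : ContDiffOn ℝ ∞ ψ O) : Sym F ρ U 0 fun p => ψ (f p) := by
  have hs : ∀ ψ : ℝ → ℝ, ContDiffOn ℝ ∞ ψ O → F.Sm fun p => ψ (f p) :=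
    fun ψ hψ => hψ.comp hf.1 hfO
  refine Gen.toSym (𝒞 := fun k g => k = 0 ∧ ∃ ψ : ℝ → ℝ, ContDiffOn ℝ ∞ ψ O ∧
    g = fun p => ψ (f p)) hF hρ ?_ ?_ ?_ (.base ⟨rfl, ψ, hψ, rfl⟩)
  · rintro _ _ ⟨rfl, ψ, hψ, rfl⟩
    exact hs ψ hψ
  · rintro _ _ ⟨rfl, ψ, hψ, rfl⟩
    obtain ⟨C, hC⟩ := hK.exists_bound_of_continuousOn (hψ.continuousOn.mono hKO)
    exact bd_of hρ (C := C) fun p hp hU => by simpa using hC _ (hfK p hp hU)
  · rintro _ _ ⟨rfl, ψ, hψ, rfl⟩ a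
    have hd : ContDiffOn ℝ ∞ (deriv ψ) O := hψ.deriv_of_isOpen hO (by simp)
    refine (((Gen.base ⟨rfl, deriv ψ, hd, rfl⟩).mul (.sym (hf.D hF a))).cast (by ring)).congrN
      (hF.sm_D (hs ψ hψ) a) (.of_on fun p hp => ?_)
    rw [hF.D_comp hp hf.1 (((hψ.contDiffAt (hO.mem_nhds (hfO p hp))).differentiableAt
      (by simp)).hasDerivAt) a]
    rfl

/-- composition with a smooth function all of whose derivatives are bounded -/
theorem Sym.comp_bdd (hf : F.Sm f) (hD : ∀ a, Sym F ρ U (-1) (F.D a f))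
    {ψ : ℝ → ℝ} (hψ : ContDiff ℝ ∞ ψ)
    (hb : ∀ k : ℕ, ∃ C, ∀ p ∈ F.M, p ∈ U → |iteratedDeriv k ψ (f p)| ≤ C) :
    Sym F ρ U 0 fun p => ψ (f p) := by
  have hk : ∀ k : ℕ, ContDiff ℝ ∞ (iteratedDeriv k ψ) := fun k => by
    rw [iteratedDeriv_eq_iterate]
    exact hψ.iterate_deriv k
  have hs : ∀ k : ℕ, F.Sm fun p => iteratedDeriv k ψ (f p) :=
    fun k => (hk k).comp_contDiffOn hf
  refine Gen.toSym (𝒞 := fun j g => j = 0 ∧ ∃ k : ℕ, g = fun p => iteratedDeriv k ψ (f p))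
    hF hρ ?_ ?_ ?_ (.base ⟨rfl, 0, by simp⟩)
  · rintro _ _ ⟨rfl, k, rfl⟩
    exact hs k
  · rintro _ _ ⟨rfl, k, rfl⟩
    obtain ⟨C, hC⟩ := hb k
    exact bd_of hρ (C := C) fun p hp hU => by simpa using hC p hp hU
  · rintro _ _ ⟨rfl, k, rfl⟩ a
    refine (((Gen.base ⟨rfl, k + 1, rfl⟩).mul (.sym (hD a))).cast (by ring)).congrN
      (hF.sm_D (hs k) a) (.of_on fun p hp => ?_)
    rw [hF.D_comp hp hf ((hk k).differentiable (by simp) _).hasDerivAt a]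
    simp [iteratedDeriv_succ]

/-- powers of the weight -/
theorem sym_zpow (hs : F.Sm ρ) (h0 : ∀ p ∈ F.M, 0 < ρ p)
    (h2 : Sym F ρ U 2 fun p => ρ p * ρ p) (m : ℤ) : Sym F ρ U m fun p => ρ p ^ m := by
  have hz : ∀ m : ℤ, F.Sm fun p => ρ p ^ m := fun m => by
    obtain ⟨k, rfl | rfl⟩ := Int.eq_nat_or_neg m
    · simp only [zpow_natCast]
      exact ContDiffOn.pow hs k
    · simp only [zpow_neg, zpow_natCast]
      exact ContDiffOn.inv (ContDiffOn.pow hs k) fun p hp => (pow_pos (h0 p hp) k).ne'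
  refine Gen.toSym (𝒞 := fun k g => g = fun p => ρ p ^ k) hF hρ (fun _ _ h => h ▸ hz _) ?_ ?_
    (.base rfl)
  · rintro k _ rfl
    exact ⟨1, one_pos.le, fun p hp hU => by
      rw [one_mul, abs_of_pos (zpow_pos (hρ p hp hU) k)]⟩
  · rintro k _ rfl a
    refine (((Gen.base (m := k - 2) rfl).mul
      (.sym ((h2.D hF a).const_mul hF hρ (k / 2)))).cast (by ring)).congrN
      (hF.sm_D (hz k) a) (.of_on fun p hp => ?_)
    have hp0 := (h0 p hp).ne'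
    rw [hF.D_comp hp hs (hasDerivAt_zpow k _ (Or.inl hp0)) a]
    have := hF.D_mul hp hs hs a
    simp only [Pi.mul_apply]
    rw [show (fun p => ρ p * ρ p) = ρ * ρ from rfl, this, zpow_sub₀ hp0, zpow_sub₀ hp0]
    field_simp
    ring

variable (hν : ∀ a, Sym F ρ U 0 (F.nu a))
include hν

theorem sym_P (a b : Fin 3) : Sym F ρ U 0 (F.P a b) :=
  ((sym_const hF hρ (if a = b then 1 else 0)).sub' hF hρ
    ((hν a).mul' hF hρ (hν b) (add_zero 0))).congr fun _ hp => hF.P_eq hp a b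

omit hρ in
theorem sym_A (a b : Fin 3) : Sym F ρ U (-1) (F.A a b) := ((hν b).D hF a).cast (by ring)

theorem sym_H : Sym F ρ U (-1) F.H := Sym.sum hF hρ fun a _ => sym_A hF hν a a

theorem sym_A2 : Sym F ρ U (-2) F.A2 :=
  Sym.sum hF hρ fun a _ => Sym.sum hF hρ fun b _ =>
    ((sym_A hF hν a b).mul hF hρ (sym_A hF hν a b)).cast (by ring)

theorem sym_x (hx : ∀ a, Bd F ρ U 1 fun p => p.1 a) (a : Fin 3) : Sym F ρ U 1 fun p => p.1 a :=
  sym_of_D (Mv.sm_x a) (hx a) fun b => (sym_P hF hρ hν b a).cast (by ring)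

/-- ambient symbols: a class of smooth functions closed under partial derivatives -/
theorem sym_amb (𝒜 : ℤ → (E → ℝ) → Prop) (hs : ∀ m g, 𝒜 m g → ContDiff ℝ ∞ g)
    (hb : ∀ m g, 𝒜 m g → Bd F ρ U m fun p => g p.1)
    (hD : ∀ m g, 𝒜 m g → ∀ b, 𝒜 (m - 1) fun x => fderiv ℝ g x (ee b)) {g : E → ℝ} (hg : 𝒜 m g) :
    Sym F ρ U m fun p => g p.1 := by
  have hsm : ∀ g : E → ℝ, ContDiff ℝ ∞ g → F.Sm fun p => g p.1 :=
    fun g hg => Mv.sm_of_contDiff (hg.comp contDiff_fst)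
  refine Gen.toSym (𝒞 := fun k f => ∃ g, 𝒜 k g ∧ f = fun p => g p.1) hF hρ ?_ ?_ ?_
    (.base ⟨g, hg, rfl⟩)
  · rintro _ _ ⟨g, hg, rfl⟩
    exact hsm g (hs _ g hg)
  · rintro _ _ ⟨g, hg, rfl⟩
    exact hb _ g hg
  · rintro k _ ⟨g, hg, rfl⟩ a
    have t : ∀ b, Gen F ρ U (fun k f => ∃ g, 𝒜 k g ∧ f = fun p => g p.1) (k - 1)
        (F.P a b * fun p => fderiv ℝ g p.1 (ee b)) := fun b =>
      ((Gen.sym (sym_P hF hρ hν a b)).mul (.base ⟨_, hD _ g hg b, rfl⟩)).cast (by ring)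
    refine (((t 0).add (t 1)).add (t 2)).congrN (hF.sm_D (hsm g (hs _ g hg)) a)
      (.of_on fun p hp => ?_)
    have hd : DifferentiableAt ℝ g p.1 := (hs _ g hg).differentiable (by simp) _
    have h1 : HasFDerivAt (fun p : ST => g p.1)
        ((fderiv ℝ g p.1).comp (ContinuousLinearMap.fst ℝ E ℝ)) p :=
      hd.hasFDerivAt.comp p hasFDerivAt_fst
    rw [hF.D_amb hp h1.differentiableAt a, h1.fderiv]
    simp only [ContinuousLinearMap.comp_apply, ContinuousLinearMap.coe_fst', Pi.add_apply,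
      Pi.mul_apply]
    rw [eq_sum_ee (F.PL p (ee a)), map_sum, Fin.sum_univ_three]
    simp only [map_smul, smul_eq_mul, Mv.PL_ee, hF.P_eq hp]

end

/-- on a bounded region every smooth ambient function has bounded jets -/
theorem sym_amb_bdd (hF : F.Reg) (hν : ∀ a, Sym F (fun _ => 1) U 0 (F.nu a)) {R : ℝ}
    (hU : ∀ p ∈ F.M, p ∈ U → ‖p.1‖ ≤ R) {g : E → ℝ} (hg : ContDiff ℝ ∞ g) (m : ℤ) :
    Sym F (fun _ => 1) U m fun p => g p.1 := by
  refine sym_amb hF pos_one hν (fun _ g => ContDiff ℝ ∞ g) (fun _ _ h => h) ?_ ?_ hg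
  · intro k g hg
    obtain ⟨C, hC⟩ := (isCompact_closedBall (0 : E) R).exists_bound_of_continuousOn
      hg.continuous.continuousOn
    exact bd_of pos_one (C := C) fun p hp hpU => by
      simpa using hC p.1 (by simpa using hU p hp hpU)
  · intro k g hg b
    exact (hg.fderiv_right (m := ∞) (by simp)).clm_apply contDiff_const

end Crest.Agent.N250.Wr

end
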