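import Crest.Agent.N250.Wr.Sy3

/-!
# Row 250 (helper67): the densities `ρ^α (1 + |x|²)^(-β)` and their logarithmic derivatives
-/

set_option autoImplicit false
open MeasureTheory Set Filter Topology
open scoped ContDiff InnerProductSpace
open Crest.GeometryTopology.MCF

noncomputable section

namespace Crest.Agent.N250.Wr

variable {S : Mv} {e : Ends S} {j : Fin e.p} {a : ℝ} {p : ST}

/-- `1 + |x|²` -/
def tt (p : ST) : ℝ := 1 + ‖p.1‖ ^ 2

theorem one_le_tt (p : ST) : 1 ≤ tt p := le_add_of_nonneg_right (sq_nonneg _)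

theorem tt_pos (p : ST) : 0 < tt p := one_pos.trans_le (one_le_tt p)

theorem contDiff_tt : ContDiff ℝ ∞ tt := contDiff_const.add ((contDiff_norm_sq ℝ).comp contDiff_fst)

theorem sm_tt : S.Sm tt := Mv.sm_of_contDiff contDiff_tt

theorem rho_sq_le (a : ℝ) (p : ST) : rho e a p ^ 2 ≤ tt p := by
  rw [tt, ← rho0_sq]
  exact pow_le_pow_left₀ (rho_pos a p).le (rho_le_rho0 a p) 2

theorem xn_eq_sum (p : ST) : S.xn 0 p = ∑ c, p.1 c * S.nu c p := by
  rw [Mv.xn, sub_zero, inner_eq_sum]; rfl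

theorem D_tt (hR : S.Reg) (hp : p ∈ S.M) (c : Fin 3) :
    S.D c tt p = 2 * (p.1 c - S.xn 0 p * S.nu c p) := by
  have h1 : HasFDerivAt tt _ p :=
    ((hasFDerivAt_fst (𝕜 := ℝ) (p := p)).norm_sq).const_add 1
  rw [hR.D_amb hp h1.differentiableAt, h1.fderiv]
  simp [Mv.PL, Mv.xn, Mv.nu, inner_sub_right, inner_smul_right, EuclideanSpace.inner_single_right]
  ring

/-- `|x^T|²` -/
def qq (S : Mv) (p : ST) : ℝ := ‖p.1‖ ^ 2 - S.xn 0 p ^ 2

theorem dr_tt (hR : S.Reg) (hp : p ∈ S.M) : ∑ c, p.1 c * S.D c tt p = 2 * qq S p := by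
  simp only [D_tt hR hp, qq, norm_sq_eq, xn_eq_sum, Fin.sum_univ_three]
  ring

theorem gam_tt (hR : S.Reg) (hp : p ∈ S.M) : ∑ c, S.D c tt p * S.D c tt p = 4 * qq S p := by
  have h := hR.nn hp
  have h2 := xn_eq_sum (S := S) p
  simp only [D_tt hR hp, qq, norm_sq_eq, Fin.sum_univ_three] at h h2 ⊢
  linear_combination 4 * S.xn 0 p ^ 2 * h + 8 * S.xn 0 p * h2

theorem qq_nonneg (hR : S.Reg) (hp : p ∈ S.M) : 0 ≤ qq S p := by
  have := gam_tt hR hp
  have h2 : 0 ≤ ∑ c, S.D c tt p * S.D c tt p := Finset.sum_nonneg fun c _ => mul_self_nonneg _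
  linarith

theorem qq_le (p : ST) : qq S p ≤ ‖p.1‖ ^ 2 := sub_le_self _ (sq_nonneg _)

theorem abs_D_tt (hR : S.Reg) (hp : p ∈ S.M) (c : Fin 3) : |S.D c tt p| ≤ 2 * ‖p.1‖ := by
  have h1 := gam_tt hR hp
  have h2 : S.D c tt p * S.D c tt p ≤ ∑ c, S.D c tt p * S.D c tt p :=
    Finset.single_le_sum (f := fun c => S.D c tt p * S.D c tt p) (fun c _ => mul_self_nonneg _)
      (Finset.mem_univ c)
  exact abs_le_of_sq_le_sq' (by nlinarith [qq_le (S := S) p]) (by positivity) |> abs_le.2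

theorem D_rho_off (hR : S.Reg) (hp : p ∈ S.M) (ho : ∀ j, p ∈ Off e j a) (c : Fin 3) :
    S.D c (rho e a) p = S.D c tt p / (2 * rho e a p) := by
  have e1 : rho e a =ᶠ[𝓝[S.M] p] fun q => √(tt q) :=
    EqN.of_open (U := {p}) (isOpen_allOff a) (fun _ _ h => h ▸ ho) (fun q _ h => rho_off h) p hp rfl
  rw [Mv.D_congr hp e1, hR.D_comp hp sm_tt (Real.hasDerivAt_sqrt (tt_pos p).ne'), rho_off ho]
  change _ = _ / (2 * √(tt p))
  ring

theorem D_rho_tube (hR : S.Reg) (hp : p ∈ S.M) (ht : p ∈ tube e j (a + 1)) (c : Fin 3) :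
    S.D c (rho e a) p = 0 := by
  have e1 : rho e a =ᶠ[𝓝[S.M] p] fun _ => 1 :=
    EqN.of_open (U := {p}) (isOpen_tube j (a + 1)) (fun _ _ h => h ▸ ht) (fun q _ h => rho_tube h)
      p hp rfl
  rw [Mv.D_congr hp e1, hR.D_const hp]

variable (e) in
/-- `ρ^α (1 + |x|²)^(-β)` -/
def wt (a α β : ℝ) (p : ST) : ℝ := Real.exp (α * Real.log (rho e a p) - β * Real.log (tt p))

theorem wt_pos (a α β : ℝ) (p : ST) : 0 < wt e a α β p := Real.exp_pos _

theorem contDiff_lw (a α β : ℝ) :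
    ContDiff ℝ ∞ fun p => α * Real.log (rho e a p) - β * Real.log (tt p) :=
  (contDiff_const.mul ((contDiff_rho a).log fun p => (rho_pos a p).ne')).sub
    (contDiff_const.mul (contDiff_tt.log fun p => (tt_pos p).ne'))

theorem contDiff_wt (a α β : ℝ) : ContDiff ℝ ∞ (wt e a α β) := (contDiff_lw a α β).exp

theorem sm_wt (a α β : ℝ) : S.Sm (wt e a α β) := Mv.sm_of_contDiff (contDiff_wt a α β)

theorem wt_eq (a : ℝ) (k : ℤ) (b : ℕ) (p : ST) :
    wt e a k b p = rho e a p ^ k / tt p ^ b := by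
  rw [wt, Real.exp_sub, ← Real.log_zpow, ← Real.log_pow, Real.exp_log (zpow_pos (rho_pos a p) k),
    Real.exp_log (pow_pos (tt_pos p) b)]

theorem iota_sq_wt (a α β : ℝ) (p : ST) :
    (rho e a p)⁻¹ ^ 2 * wt e a α β p = wt e a (α - 2) β p := by
  have h := rho_pos (e := e) a p
  have : (rho e a p)⁻¹ ^ 2 = Real.exp (-(2 * Real.log (rho e a p))) := by
    rw [Real.exp_neg, show 2 * Real.log (rho e a p) = Real.log (rho e a p ^ 2) by
      rw [Real.log_pow]; norm_num, Real.exp_log (by positivity), inv_pow]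
  rw [this, wt, wt, ← Real.exp_add]
  congr 1
  ring

theorem D_wt (hR : S.Reg) (hp : p ∈ S.M) (a α β : ℝ) (c : Fin 3) :
    S.D c (wt e a α β) p = wt e a α β p *
      (α * (S.D c (rho e a) p / rho e a p) - β * (S.D c tt p / tt p)) := by
  have s1 : S.Sm fun p => Real.log (rho e a p) :=
    Mv.sm_of_contDiff ((contDiff_rho a).log fun p => (rho_pos a p).ne')
  have s2 : S.Sm fun p => Real.log (tt p) :=
    Mv.sm_of_contDiff (contDiff_tt.log fun p => (tt_pos p).ne')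
  have h1 := hR.D_comp hp (Mv.sm_of_contDiff (contDiff_lw (e := e) a α β))
    (Real.hasDerivAt_exp _) c
  have h2 := hR.D_sub hp (f := fun p => α * Real.log (rho e a p))
    (g := fun p => β * Real.log (tt p)) ((Mv.sm_const α).mul s1) ((Mv.sm_const β).mul s2) c
  rw [hR.D_const_mul hp α s1, hR.D_const_mul hp β s2,
    hR.D_comp hp (sm_rho a) (Real.hasDerivAt_log (rho_pos a p).ne'),
    hR.D_comp hp sm_tt (Real.hasDerivAt_log (tt_pos p).ne')] at h2
  refine h1.trans ?_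
  rw [show (fun p => α * Real.log (rho e a p) - β * Real.log (tt p)) =
    (fun p => α * Real.log (rho e a p)) - fun p => β * Real.log (tt p) from rfl, h2, wt]
  ring

section Shr
variable (hS : S.IsShr) (ha : e.R < a)
include hS ha

theorem xn_sq_le : ∃ C : ℝ, 0 ≤ C ∧ ∀ p ∈ S.M, S.xn 0 p ^ 2 ≤ C := by
  obtain ⟨C, h0, h⟩ := ((sym_xn hS ha).le (fun p _ _ => one_le_rho a p) (n := 0) (by norm_num)).bd
  refine ⟨C ^ 2, by positivity, fun p hp => ?_⟩
  have := h p hp trivial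
  rw [zpow_zero, mul_one] at this
  exact sq_le_sq' (abs_le.1 this).1 (abs_le.1 this).2

theorem A2_le : ∃ C : ℝ, 0 ≤ C ∧ ∀ p ∈ S.M, S.A2 p ≤ C / rho e a p ^ 2 := by
  obtain ⟨C, h0, h⟩ := (sym_A2 hS.reg pos_rho (sym_nu hS.reg hS.st ha)).bd
  refine ⟨C, h0, fun p hp => (le_abs_self _).trans ((h p hp trivial).trans_eq ?_)⟩
  rw [zpow_neg, div_eq_mul_inv]; rfl

theorem D_rho_le : ∃ C : ℝ, 0 ≤ C ∧ ∀ p ∈ S.M, ∀ c, |S.D c (rho e a) p| ≤ C := by
  choose C h0 h using fun c => ((sym_rho1 hS.reg hS.st ha).D hS.reg c).bd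
  refine ⟨∑ c, C c, Finset.sum_nonneg fun c _ => h0 c, fun p hp c => ?_⟩
  have := h c p hp trivial
  rw [sub_self, zpow_zero, mul_one] at this
  exact this.trans (Finset.single_le_sum (fun c _ => h0 c) (Finset.mem_univ c))

theorem dr_rho : ∃ C : ℝ, 0 ≤ C ∧ ∀ p ∈ S.M,
    |∑ c, p.1 c * S.D c (rho e a) p - rho e a p| ≤ C * (rho e a p)⁻¹ := by
  obtain ⟨C₁, h₁, H₁⟩ := xn_sq_le hS ha
  obtain ⟨C₂, h₂, H₂⟩ := D_rho_le hS ha
  have hR3 := R_pos e
  set r := 2 * (a + 1) with hr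
  have r0 : 0 < r := by linarith
  set K := (3 * (r * C₂) + (1 + r)) * (1 + r)
  have K0 : 0 ≤ K := by positivity
  refine ⟨K + (1 + C₁), by positivity, fun p hp => ?_⟩
  have hρ := rho_pos (e := e) a p
  have hι := inv_pos.2 hρ
  rcases three hS.st (b := a + 1) (c := r) (by linarith) le_rfl hp with h | h | ⟨j, h⟩
  · have h0 : ‖p.1‖ ≤ r := h
    have h1 : rho e a p ≤ 1 + r := by linarith [rho_le_rho0 (e := e) a p, rho0_le p]
    have h2 : ∀ c, |p.1 c * S.D c (rho e a) p| ≤ r * C₂ := fun c => by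
      rw [abs_mul]
      exact mul_le_mul ((abs_co_le _ c).trans h0) (H₂ p hp c) (abs_nonneg _) r0.le
    have h3 : |∑ c, p.1 c * S.D c (rho e a) p - rho e a p| ≤ 3 * (r * C₂) + (1 + r) := by
      rw [Fin.sum_univ_three, abs_le]
      constructor <;> linarith [abs_le.1 (h2 0), abs_le.1 (h2 1), abs_le.1 (h2 2)]
    have h4 : 1 ≤ (1 + r) * (rho e a p)⁻¹ := by rwa [← div_eq_mul_inv, one_le_div hρ]
    calc _ ≤ (3 * (r * C₂) + (1 + r)) * 1 := by linarith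
      _ ≤ (3 * (r * C₂) + (1 + r)) * ((1 + r) * (rho e a p)⁻¹) := by gcongr
      _ = K * (rho e a p)⁻¹ := by ring
      _ ≤ _ := by gcongr; linarith
  · have ho := con_off ha h.2
    have h1 : ∑ c, p.1 c * S.D c (rho e a) p - rho e a p =
        -((1 + S.xn 0 p ^ 2) * (rho e a p)⁻¹) := by
      have h2 : rho e a p ^ 2 = 1 + ‖p.1‖ ^ 2 := by rw [rho_off ho, rho0_sq]
      simp only [D_rho_off hS.reg hp ho, ← mul_div_assoc, ← Finset.sum_div, dr_tt hS.reg hp, qq]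
      field_simp
      linarith
    rw [h1, abs_neg, abs_of_nonneg (by positivity)]
    exact mul_le_mul_of_nonneg_right (by linarith [H₁ p hp]) hι.le
  · simp only [D_rho_tube hS.reg hp h, rho_tube h, mul_zero, Finset.sum_const_zero, zero_sub,
      abs_neg, abs_one, inv_one, mul_one]
    linarith

theorem D_wt_le (α β : ℝ) : ∃ C : ℝ, ∀ c, ∀ p ∈ S.M,
    |S.D c (wt e a α β) p| ≤ C * (rho e a p)⁻¹ * wt e a α β p := by
  obtain ⟨C, h0, H⟩ := D_rho_le hS ha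
  refine ⟨|α| * C + |β| * 2, fun c p hp => ?_⟩
  have hρ := rho_pos (e := e) a p
  have ht := tt_pos p
  rw [D_wt hS.reg hp, abs_mul, abs_of_pos (wt_pos _ _ _ _), mul_comm]
  refine mul_le_mul_of_nonneg_right ((abs_sub _ _).trans ?_) (wt_pos _ _ _ _).le
  rw [abs_mul, abs_mul, abs_div, abs_div, abs_of_pos hρ, abs_of_pos ht, add_mul, mul_assoc,
    mul_assoc]
  gcongr
  · rw [div_eq_mul_inv]
    gcongr
    exact H p hp c
  · rw [← div_eq_mul_inv, div_le_div_iff₀ ht hρ]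
    have h1 := abs_D_tt hS.reg hp c
    have h2 : ‖p.1‖ * rho e a p ≤ tt p := by
      rw [tt, ← rho0_sq, sq]
      exact mul_le_mul (norm_le_rho0 p) (rho_le_rho0 a p) hρ.le (rho0_pos p).le
    nlinarith

theorem dr_wt_le {β : ℝ} (hβ : 2 ≤ β) : ∃ C : ℝ, ∀ p ∈ S.M,
    ∑ c, p.1 c * S.D c (wt e a (2 * β - 4) β) p ≤
      (-4 + C * (rho e a p)⁻¹ ^ 2) * wt e a (2 * β - 4) β p := by
  obtain ⟨C₁, h₁, H₁⟩ := xn_sq_le hS ha
  obtain ⟨C₂, h₂, H₂⟩ := dr_rho hS ha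
  refine ⟨(2 * β - 4) * C₂ + 2 * β * (1 + C₁), fun p hp => ?_⟩
  have hρ := rho_pos (e := e) a p
  have ht := tt_pos p
  have h1 : ∑ c, p.1 c * S.D c (wt e a (2 * β - 4) β) p =
      ((2 * β - 4) * ((∑ c, p.1 c * S.D c (rho e a) p) / rho e a p) - β * (2 * qq S p / tt p)) *
        wt e a (2 * β - 4) β p := by
    simp only [D_wt hS.reg hp, ← dr_tt hS.reg hp, Fin.sum_univ_three]
    ring
  rw [h1]
  refine mul_le_mul_of_nonneg_right ?_ (wt_pos _ _ _ _).le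
  have h2 : (∑ c, p.1 c * S.D c (rho e a) p) / rho e a p ≤ 1 + C₂ * (rho e a p)⁻¹ ^ 2 := by
    rw [div_le_iff₀ hρ]
    have := (abs_le.1 (H₂ p hp)).2
    have e : (1 + C₂ * (rho e a p)⁻¹ ^ 2) * rho e a p = rho e a p + C₂ * (rho e a p)⁻¹ := by
      field_simp
    linarith
  have h3 : 2 - 2 * (1 + C₁) * (rho e a p)⁻¹ ^ 2 ≤ 2 * qq S p / tt p := by
    have e1 : 2 * qq S p / tt p = 2 - 2 * (1 + S.xn 0 p ^ 2) * (tt p)⁻¹ := by
      rw [qq]
      field_simp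
      rw [tt]
      ring
    have e2 : (tt p)⁻¹ ≤ (rho e a p)⁻¹ ^ 2 := by
      rw [inv_pow]
      exact inv_anti₀ (by positivity) (rho_sq_le a p)
    have : 2 * (1 + S.xn 0 p ^ 2) * (tt p)⁻¹ ≤ 2 * (1 + C₁) * (rho e a p)⁻¹ ^ 2 := by
      gcongr
      exact H₁ p hp
    linarith
  nlinarith [mul_le_mul_of_nonneg_left h2 (by linarith : 0 ≤ 2 * β - 4),
    mul_le_mul_of_nonneg_left h3 (by linarith : 0 ≤ β)]

omit ha in
theorem far_pt (hp : p ∈ S.M) {w γ A C : ℝ} {g : Fin 3 → ℝ}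
    (hg : ∀ c, g c = w * (-γ * (S.D c tt p / tt p))) (hγ : 0 ≤ γ) (hC : S.xn 0 p ^ 2 ≤ C)
    (hA : 1 + A - γ / 2 ≤ -1 / 4) (ht : 8 * (γ / 2 * (1 + C) + 8 * γ ^ 2) ≤ tt p) :
    (1 + A) * w ^ 2 + (∑ c, p.1 c * g c) * w / 4 + 2 * ∑ c, g c * g c ≤ -w ^ 2 / 8 := by
  have t0 := tt_pos p
  have h1 : ∑ c, p.1 c * g c = w * (-γ * (2 * qq S p / tt p)) := by
    simp only [hg, ← dr_tt hS.reg hp, Fin.sum_univ_three]; ring
  have h2 : ∑ c, g c * g c = w ^ 2 * (γ ^ 2 * (4 * qq S p / tt p ^ 2)) := by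
    simp only [hg, ← gam_tt hS.reg hp, Fin.sum_univ_three]; ring
  have h3 : qq S p / tt p = 1 - (1 + S.xn 0 p ^ 2) / tt p := by
    rw [qq]
    field_simp
    rw [tt]
    ring
  have h4 : qq S p / tt p ^ 2 ≤ 1 / tt p := by
    rw [div_le_div_iff₀ (by positivity) t0]
    have : qq S p ≤ tt p := by linarith [qq_le (S := S) p, show tt p = 1 + ‖p.1‖ ^ 2 from rfl]
    nlinarith
  have h5 : (1 + S.xn 0 p ^ 2) / tt p ≤ (1 + C) / tt p := by gcongr
  have h6 : (γ / 2 * (1 + C) + 8 * γ ^ 2) / tt p ≤ 1 / 8 := by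
    rw [div_le_iff₀ t0]; linarith
  have h7 : 1 + A - γ / 2 * (qq S p / tt p) + 8 * γ ^ 2 * (qq S p / tt p ^ 2) ≤ -1 / 8 := by
    rw [h3]
    have e : (γ / 2 * (1 + C) + 8 * γ ^ 2) / tt p =
        γ / 2 * ((1 + C) / tt p) + 8 * γ ^ 2 * (1 / tt p) := by ring
    nlinarith [mul_le_mul_of_nonneg_left h5 (by linarith : 0 ≤ γ / 2),
      mul_le_mul_of_nonneg_left h4 (by positivity : 0 ≤ 8 * γ ^ 2)]
  rw [h1, h2]
  calc _ = w ^ 2 * (1 + A - γ / 2 * (qq S p / tt p) + 8 * γ ^ 2 * (qq S p / tt p ^ 2)) := by ring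
    _ ≤ w ^ 2 * (-1 / 8) := by gcongr
    _ = _ := by ring

theorem far_wt {β : ℝ} (hβ : ∀ p ∈ S.M, 2 * S.A2 p + 4 ≤ β) : ∃ R₁ : ℝ, ∀ p ∈ S.M,
    R₁ ≤ ‖p.1‖ ^ 2 → (1 + S.A2 p) * wt e a (2 * β - 6) β p ^ 2
      + (∑ c, p.1 c * S.D c (wt e a (2 * β - 6) β) p) * wt e a (2 * β - 6) β p / 4
      + 2 * ∑ c, S.D c (wt e a (2 * β - 6) β) p * S.D c (wt e a (2 * β - 6) β) p
        ≤ -wt e a (2 * β - 6) β p ^ 2 / 8 := by
  obtain ⟨C₁, h₁, H₁⟩ := xn_sq_le hS ha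
  obtain ⟨C₂, h₂, H₂⟩ := A2_le hS ha
  have hR3 := R_pos e
  refine ⟨(2 * (a + 1)) ^ 2 + 1 + 4 * C₂ + 8 * (3 / 2 * (1 + C₁) + 8 * 3 ^ 2)
    + 8 * (|β| / 2 * (1 + C₁) + 8 * β ^ 2), fun p hp hR => ?_⟩
  have hb : 0 ≤ β := by linarith [hβ p hp, Mv.A2_nonneg (F := S) p]
  rw [abs_of_nonneg hb] at hR
  have k1 : 0 ≤ 8 * (β / 2 * (1 + C₁) + 8 * β ^ 2) := by positivity
  have k2 : 0 ≤ 8 * (3 / 2 * (1 + C₁) + 8 * 3 ^ 2) := by positivity
  have k3 : 0 ≤ (2 * (a + 1)) ^ 2 := sq_nonneg _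
  have ht : tt p = 1 + ‖p.1‖ ^ 2 := rfl
  have hρ := rho_pos (e := e) a p
  rcases three hS.st (b := a + 1) (c := 2 * (a + 1)) (by linarith) le_rfl hp with h | h | ⟨j, h⟩
  · have h0 : ‖p.1‖ ≤ 2 * (a + 1) := h
    have := pow_le_pow_left₀ (norm_nonneg _) h0 2
    linarith
  · have ho := con_off ha h.2
    have h2 : rho e a p ^ 2 = tt p := by rw [rho_off ho, rho0_sq, ht]
    refine far_pt hS hp (γ := 3) (fun c => ?_) (by norm_num) (H₁ p hp) ?_ (by linarith)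
    · rw [D_wt hS.reg hp, D_rho_off hS.reg hp ho, ← h2]
      field_simp
      ring
    · have h3 := H₂ p hp
      rw [h2] at h3
      have : C₂ / tt p ≤ 1 / 4 := by
        rw [div_le_iff₀ (tt_pos p)]
        linarith
      linarith
  · refine far_pt hS hp (γ := β) (fun c => ?_) hb (H₁ p hp) (by linarith [hβ p hp]) (by linarith)
    rw [D_wt hS.reg hp, D_rho_tube hS.reg hp h]
    ring

end Shr

/-- `(1 + |x|²)⁻²` is integrable -/
theorem intg_tt {μ : Measure E} {Λ : ℝ}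
    (h : ∀ r, 0 < r → μ (Metric.ball 0 r) ≤ ENNReal.ofReal (Λ * r ^ 2)) :
    Integrable (fun x : E => ((1 + ‖x‖ ^ 2) ^ 2)⁻¹) μ := by
  have hc : Continuous fun x : E => ((1 + ‖x‖ ^ 2) ^ 2)⁻¹ :=
    Continuous.inv₀ (by fun_prop) fun x => by positivity
  refine ⟨hc.aestronglyMeasurable, ?_⟩
  rw [hasFiniteIntegral_iff_ofReal (Eventually.of_forall fun x => by positivity)]
  have hs : Summable fun k : ℕ => 16 * |Λ| * (1 / 4 : ℝ) ^ k :=
    (summable_geometric_of_lt_one (by norm_num) (by norm_num)).mul_left _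
  calc _ ≤ ∫⁻ x, ∑' k : ℕ, (Metric.ball (0 : E) (2 ^ (k + 1))).indicator
          (fun _ => ENNReal.ofReal (4 * (1 / 16 : ℝ) ^ k)) x ∂μ := by
        refine lintegral_mono fun x => ?_
        obtain ⟨k, h1, h2⟩ := exists_nat_pow_near (x := 1 + ‖x‖) (y := 2)
          (by linarith [norm_nonneg x]) one_lt_two
        refine le_trans ?_ (ENNReal.le_tsum k)
        rw [indicator_of_mem (by rw [mem_ball_zero_iff]; linarith)]
        apply ENNReal.ofReal_le_ofReal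
        have h3 : (2 : ℝ) ^ k * 2 ^ k ≤ 2 * (1 + ‖x‖ ^ 2) := by
          have := mul_le_mul h1 h1 (by positivity) (by positivity)
          nlinarith [sq_nonneg (‖x‖ - 1)]
        have h4 : (16 : ℝ) ^ k = (2 ^ k * 2 ^ k) ^ 2 := by
          rw [← mul_pow, ← pow_mul, mul_comm k 2, pow_mul]; norm_num
        rw [one_div, inv_pow, ← div_eq_mul_inv, ← one_div, div_le_div_iff₀ (by positivity)
          (by positivity), h4]
        nlinarith [pow_le_pow_left₀ (by positivity) h3 2]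
    _ = ∑' k : ℕ, ENNReal.ofReal (4 * (1 / 16 : ℝ) ^ k) * μ (Metric.ball 0 (2 ^ (k + 1))) := by
        rw [lintegral_tsum fun k =>
          (measurable_const.indicator Metric.isOpen_ball.measurableSet).aemeasurable]
        congr 1
        funext k
        rw [lintegral_indicator_const Metric.isOpen_ball.measurableSet]
    _ ≤ ∑' k : ℕ, ENNReal.ofReal (16 * |Λ| * (1 / 4 : ℝ) ^ k) := by
        refine ENNReal.tsum_le_tsum fun k => ?_
        refine le_trans (mul_le_mul_right (h _ (by positivity)) _) ?_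
        rw [← ENNReal.ofReal_mul (by positivity)]
        apply ENNReal.ofReal_le_ofReal
        have e : (1 / 16 : ℝ) ^ k * (2 ^ k) ^ 2 = (1 / 4) ^ k := by
          rw [← pow_mul, mul_comm k 2, pow_mul, ← mul_pow]; norm_num
        calc _ ≤ 4 * (1 / 16 : ℝ) ^ k * (|Λ| * (2 ^ (k + 1)) ^ 2) := by
              gcongr; exact le_abs_self Λ
          _ = 16 * |Λ| * ((1 / 16 : ℝ) ^ k * (2 ^ k) ^ 2) := by ring
          _ = _ := by rw [e]
    _ < ⊤ := by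
        rw [← ENNReal.ofReal_tsum_of_nonneg (fun k => by positivity) hs]
        exact ENNReal.ofReal_lt_top

end Crest.Agent.N250.Wr

end
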